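import Vale.Agent.P255.Assembly.Conjugate
import Vale.Agent.P255.Collar
import Vale.Agent.P255.Model

/-!
Coordinates on the glued manifold and the middle bands of its collars.
-/

open Bundle Manifold Set Filter
open scoped ContDiff Topology

namespace Vale.Agent.P255

set_option maxSynthPendingDepth 3

noncomputable section

open P216.Chord

/-- The inverse of `latMap`. -/
def latInv (N : ℕ) : E3 →L[ℝ] E3 :=
  let pt : E3 →L[ℝ] ℝ := ContinuousLinearMap.fst ℝ ℝ (ℝ × ℝ)
  let p₁ : E3 →L[ℝ] ℝ :=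
    (ContinuousLinearMap.fst ℝ ℝ ℝ).comp (ContinuousLinearMap.snd ℝ ℝ (ℝ × ℝ))
  let p₂ : E3 →L[ℝ] ℝ :=
    (ContinuousLinearMap.snd ℝ ℝ ℝ).comp (ContinuousLinearMap.snd ℝ ℝ (ℝ × ℝ))
  pt.prod (((1 + eps N ^ 2)⁻¹ • (p₁ - eps N • p₂)).prod ((1 + eps N ^ 2)⁻¹ • (p₂ + eps N • p₁)))

theorem latMap_latInv (N : ℕ) (y : E3) : latMap N (latInv N y) = y := by
  have : (1 + eps N ^ 2) ≠ 0 := by positivity
  refine Prod.ext rfl (Prod.ext ?_ ?_) <;> simp [latMap, latInv] <;> field_simp <;> ring

theorem latInv_latMap (N : ℕ) (y : E3) : latInv N (latMap N y) = y := by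
  have : (1 + eps N ^ 2) ≠ 0 := by positivity
  refine Prod.ext rfl (Prod.ext ?_ ?_) <;> simp [latMap, latInv] <;> field_simp <;> ring

theorem isOpen_collarSet' : IsOpen collarSet := isOpen_Ioo.preimage continuous_fst

theorem collarTurn_four (y : E3) : collarTurn (collarTurn (collarTurn (collarTurn y))) = y := by
  refine Prod.ext ?_ (Prod.ext ?_ ?_) <;> simp [collarTurn]

theorem collarTurn_fst (y : E3) : (collarTurn y).1 = -y.1 := by simp [collarTurn]

variable {E : Type*} [NormedAddCommGroup E] [NormedSpace ℝ E] [FiniteDimensional ℝ E]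
  {M : Type*} [TopologicalSpace M] [ChartedSpace E M] [IsManifold 𝓘(ℝ, E) ∞ M]
  {g : ContMDiffRiemannianMetric 𝓘(ℝ, E) ∞ E (fun x : M => TangentSpace 𝓘(ℝ, E) x)}

/-- The parametrisation of coordinates is an open map. -/
theorem Coord.isOpen_image (C : Coord g) {O : Set E} (hO : IsOpen O) (hOU : O ⊆ C.U) :
    IsOpen (C.ψ '' O) := by
  rw [isOpen_iff_mem_nhds]
  rintro _ ⟨y, hy, rfl⟩
  obtain ⟨D, hD, -, hψ⟩ := C.exists_par (hOU hy)
  have hW : C.ψ y ∈ D.W := hψ ▸ D.mapsψ hD
  have h := (D.smoothφ.continuousOn.isOpen_inter_preimage D.openW hO).mem_nhds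
    (x := C.ψ y) ⟨hW, show D.φ (C.ψ y) ∈ O by rw [← hψ, D.left y hD]; exact hy⟩
  refine mem_of_superset h fun z hz => ⟨D.φ z, hz.2, ?_⟩
  rw [← hψ]
  exact D.right z hz.1

/-- Nonpositive curvature in some coordinates gives it in the chart at the point. -/
theorem Coord.curv_nonpos (C : Coord g) {y : E} (hy : y ∈ C.U)
    (h : ∀ u v, C.G y (curvature C.G y u v v) u ≤ 0) (u v : E) :
    P216.metricInChart g (C.ψ y) (extChartAt 𝓘(ℝ, E) (C.ψ y) (C.ψ y))
      (curvature (P216.metricInChart g (C.ψ y)) (extChartAt 𝓘(ℝ, E) (C.ψ y) (C.ψ y)) u v v) u ≤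
      0 := by
  set C₀ := Coord.chart g (C.ψ y)
  set z := extChartAt 𝓘(ℝ, E) (C.ψ y) (C.ψ y)
  have hz : z ∈ C₀.U := mem_extChartAt_target (C.ψ y)
  have he : C₀.ψ z = C.ψ y := extChartAt_to_inv (C.ψ y)
  obtain ⟨V, Φ, hV, hzV, hVU, hmaps, hΦy, hΦ, -, -, hp⟩ := C₀.exists_change C hz hy he
  have hG : IsMetricOn V C₀.G := ⟨hV, C₀.isMetric.smooth.mono hVU,
    fun a ha => C₀.isMetric.symm a (hVU ha), fun a ha => C₀.isMetric.pos a (hVU ha)⟩
  show C₀.G z (curvature C₀.G z u v v) u ≤ 0
  rw [← hp z hzV, ← curvature_map hG C.isMetric hΦ hmaps hp hzV, hΦy]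
  exact h _ _

/-- Where the curvature is nonpositive the integrand is nonnegative. -/
theorem dens_nonneg {c : ℝ → M} (K : ∀ t, TangentSpace 𝓘(ℝ, E) (c t)) {s : ℝ}
    (h : ∀ u v : E, P216.metricInChart g (c s) (extChartAt 𝓘(ℝ, E) (c s) (c s))
      (curvature (P216.metricInChart g (c s)) (extChartAt 𝓘(ℝ, E) (c s) (c s)) u v v) u ≤ 0) :
    0 ≤ dens g c K s := by
  unfold dens indexDensity
  have hG : IsMetricOn (extChartAt 𝓘(ℝ, E) (c s)).target (P216.metricInChart g (c s)) :=
    (Coord.chart g (c s)).isMetric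
  set ξ := fieldInChart (c s) c K
  set D := covDeriv (P216.metricInChart g (c s)) (fun r => extChartAt 𝓘(ℝ, E) (c s) (c r)) ξ s
  have h1 : 0 ≤ P216.metricInChart g (c s) (extChartAt 𝓘(ℝ, E) (c s) (c s)) D D := by
    rcases eq_or_ne D 0 with hD | hD
    · rw [hD, map_zero]
    · exact (hG.pos _ (mem_extChartAt_target (c s)) D hD).le
  linarith [h (ξ s) (deriv (fun r => extChartAt 𝓘(ℝ, E) (c s) (c r)) s)]

namespace Model

variable {N : ℕ} {P : Piece N} (Q : Model P)

/-- The coordinates of a copy of the piece. -/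
def pieceCoord (b : Bool) : Coord Q.g where
  U := P.dom3
  G := P.metric
  ψ := Q.proj b
  isMetric := P.isMetric
  smooth := Q.proj_smooth b
  inj := fun y hy v hv h => hv ((Q.proj_inv b y hy).1 (h.trans (map_zero _).symm))
  pull := Q.proj_pull b

/-- An end of the first copy, in collar coordinates. -/
def endPsi (e : Fin N) (y : E3) : Q.M := Q.proj false (P.endMap e (latInv N y))

theorem endMap_mem_dom3 (e : Fin N) {q : E3} (hq : q ∈ collarSet) : P.endMap e q ∈ P.dom3 :=
  P.end_mem e q hq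

theorem latInv_mem (N : ℕ) {y : E3} (hy : y ∈ collarSet) : latInv N y ∈ collarSet := hy

theorem mfderiv_endPsi (e : Fin N) {y : E3} (hy : y ∈ collarSet) (v : E3) :
    mfderiv 𝓘(ℝ, E3) 𝓘(ℝ, E3) (Q.endPsi e) y v =
      mfderiv 𝓘(ℝ, E3) 𝓘(ℝ, E3) (Q.proj false) (P.endMap e (latInv N y))
        (fderiv ℝ (P.endMap e) (latInv N y) (latInv N v)) := by
  have hend := ((P.end_smooth e).contDiffAt
    (isOpen_collarSet'.mem_nhds (latInv_mem N hy))).differentiableAt (by simp)
  have hΦ : DifferentiableAt ℝ (fun z => P.endMap e (latInv N z)) y :=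
    hend.comp y (latInv N).differentiableAt
  have h1 := ((Q.proj_smooth false).contMDiffAt ((P.isMetric.isOpen).mem_nhds
    (endMap_mem_dom3 e (latInv_mem N hy)))).mdifferentiableAt (by simp : (∞ : WithTop ℕ∞) ≠ 0)
  have hd : fderiv ℝ (fun z => P.endMap e (latInv N z)) y =
      (fderiv ℝ (P.endMap e) (latInv N y)).comp (latInv N) := by
    rw [show (fun z => P.endMap e (latInv N z)) = P.endMap e ∘ latInv N from rfl,
      fderiv_comp y hend (latInv N).differentiableAt, (latInv N).fderiv]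
  have := congrArg (fun T : E3 →L[ℝ] E3 => T v)
    (mfderiv_comp (I := 𝓘(ℝ, E3)) (I' := 𝓘(ℝ, E3)) (I'' := 𝓘(ℝ, E3)) y
      (g := Q.proj false) (f := fun z => P.endMap e (latInv N z)) h1
      (mdifferentiableAt_iff_differentiableAt.2 hΦ))
  rw [mfderiv_eq_fderiv, hd] at this
  exact this

/-- The collar coordinates of an end. -/
def endCoord (hC : CollarGood N) (e : Fin N) : Coord Q.g where
  U := collarSet
  G := collarMetric N
  ψ := Q.endPsi e
  isMetric := hC.metric
  smooth := by
    refine (Q.proj_smooth false).comp (ContDiffOn.contMDiffOn ?_)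
      (fun y hy => endMap_mem_dom3 e (latInv_mem N hy))
    exact (P.end_smooth e).comp (latInv N).contDiff.contDiffOn fun y hy => latInv_mem N hy
  inj := fun y hy v hv h => by
    rw [Q.mfderiv_endPsi e hy] at h
    have h1 := (Q.proj_inv false _ (endMap_mem_dom3 e (latInv_mem N hy))).1
      (h.trans (map_zero _).symm)
    have h2 := (P.end_inv e _ (latInv_mem N hy)).1 (h1.trans (map_zero _).symm)
    exact hv (by rw [← latMap_latInv N v, h2, map_zero])
  pull := fun y hy u w => by
    rw [Q.mfderiv_endPsi e hy, Q.mfderiv_endPsi e hy]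
    refine (Q.proj_pull false _ (endMap_mem_dom3 e (latInv_mem N hy)) _ _).trans ?_
    rw [P.end_pull e _ (latInv_mem N hy)]
    simp [latMetric, latMap_latInv]

/-- Two points of ends have the same image only in the same end and at the same time. -/
theorem endPsi_eq {e e' : Fin N} {y y' : E3} (hy : y ∈ collarSet) (hy' : y' ∈ collarSet)
    (h : Q.endPsi e y = Q.endPsi e' y') : e = e' ∧ y'.1 = y.1 := by
  rcases Q.proj_eq false false _ (endMap_mem_dom3 e (latInv_mem N hy)) _
    (endMap_mem_dom3 e' (latInv_mem N hy')) h with ⟨-, l, hl⟩ | ⟨hb, -⟩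
  · have he : e = e' := by
      by_contra hne
      refine P.end_disjoint e e' hne _ (latInv_mem N hy) _ (latInv_mem N hy') ?_
      rw [hl]
      simp
    subst he
    obtain ⟨i, j, hij⟩ := P.end_inj e _ (latInv_mem N hy) _ (latInv_mem N hy') l hl
    refine ⟨rfl, ?_⟩
    have := congrArg Prod.fst hij
    simpa [latInv, latShift] using this
  · exact absurd rfl hb

/-- The open middle band of an end. -/
def band (e : Fin N) : Set Q.M := Q.endPsi e '' {y | |y.1| < 2}

/-- The closed middle band of an end. -/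
def band' (e : Fin N) : Set Q.M := Q.endPsi e '' {y | |y.1| ≤ 2}

theorem strip_subset {y : E3} (hy : |y.1| ≤ 2) : y ∈ collarSet := by
  obtain ⟨h1, h2⟩ := abs_le.1 hy
  exact ⟨by linarith, by linarith⟩

theorem band_subset (e : Fin N) : Q.band e ⊆ Q.band' e :=
  image_mono fun x (h : |x.1| < 2) => show |x.1| ≤ 2 from le_of_lt h

theorem isOpen_band (hC : CollarGood N) (e : Fin N) : IsOpen (Q.band e) :=
  (Q.endCoord hC e).isOpen_image (isOpen_lt continuous_fst.abs continuous_const)
    fun _ hy => strip_subset (le_of_lt hy)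

theorem isCompact_band' (e : Fin N) : IsCompact (Q.band' e) := by
  set K : Set E3 := latMap N '' (Icc (-2) 2 ×ˢ (Icc (0 : ℝ) 1 ×ˢ Icc (0 : ℝ) 1))
  have hK : IsCompact K :=
    (isCompact_Icc.prod (isCompact_Icc.prod isCompact_Icc)).image (latMap N).continuous
  have hKs : K ⊆ {y | |y.1| ≤ 2} := by
    rintro _ ⟨q, hq, rfl⟩
    exact abs_le.2 hq.1
  have hcont : ContinuousOn (Q.endPsi e) K := by
    refine ((Q.proj_smooth false).continuousOn.comp ((P.end_smooth e).continuousOn.comp
      (latInv N).continuous.continuousOn fun y hy => latInv_mem N hy)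
      fun y hy => endMap_mem_dom3 e (latInv_mem N hy)).mono fun y hy => strip_subset (hKs hy)
  have heq : Q.band' e = Q.endPsi e '' K := by
    refine Subset.antisymm ?_ (image_mono hKs)
    rintro _ ⟨y, hy, rfl⟩
    set q := latInv N y
    set q' : E3 := q + latShift (-⌊q.2.1⌋) (-⌊q.2.2⌋)
    have hq' : q' ∈ Icc (-2) 2 ×ˢ (Icc (0 : ℝ) 1 ×ˢ Icc (0 : ℝ) 1) := by
      refine ⟨?_, ⟨?_, ?_⟩, ?_, ?_⟩
      · simpa [q', q, latShift, latInv] using abs_le.1 (show |y.1| ≤ 2 from hy)
      all_goals simp only [q', latShift, Prod.snd_add, Prod.fst_add, Int.cast_neg]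
      · linarith [Int.floor_le q.2.1]
      · linarith [Int.lt_floor_add_one q.2.1]
      · linarith [Int.floor_le q.2.2]
      · linarith [Int.lt_floor_add_one q.2.2]
    refine ⟨latMap N q', mem_image_of_mem _ hq', ?_⟩
    have hqc : q ∈ collarSet := latInv_mem N (strip_subset hy)
    show Q.proj false (P.endMap e (latInv N (latMap N q'))) = Q.proj false (P.endMap e q)
    rw [latInv_latMap, P.end_shift e q hqc]
    exact Q.proj_shift false _ (endMap_mem_dom3 e hqc) _
  rw [heq]
  exact hK.image_of_continuousOn hcont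

theorem band_disjoint {e e' : Fin N} (h : e ≠ e') : Disjoint (Q.band' e) (Q.band' e') := by
  refine Set.disjoint_left.2 ?_
  rintro _ ⟨y, hy, rfl⟩ ⟨y', hy', he⟩
  exact h (Q.endPsi_eq (strip_subset hy) (strip_subset hy') he.symm).1

/-- Off the middle bands the curvature is nonpositive. -/
theorem curv_outside {m : Q.M} (hm : ∀ e, m ∉ Q.band e) (u v : E3) :
    P216.metricInChart Q.g m (extChartAt 𝓘(ℝ, E3) m m)
      (curvature (P216.metricInChart Q.g m) (extChartAt 𝓘(ℝ, E3) m m) u v v) u ≤ 0 := by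
  obtain ⟨b, y, hy, rfl⟩ := Q.proj_surj m
  refine (Q.pieceCoord b).curv_nonpos (y := y) hy (P.curv y hy fun e q hq hq1 heq => hm e ?_) u v
  set q' : E3 := q + (0, y.2.2 - (P.endMap e q).2.2, 0)
  have hy' : P.endMap e q' = y := by
    rw [P.end_fiber e q hq]
    refine Prod.ext ?_ (Prod.ext ?_ ?_)
    · simpa using congrArg Prod.fst heq
    · simpa using congrArg Prod.snd heq
    · simp
  have hq'1 : q'.1 = q.1 := by simp [q']
  cases b
  · refine ⟨latMap N q', ?_, ?_⟩
    · show |q'.1| < 2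
      rw [hq'1]; linarith
    · show Q.proj false (P.endMap e (latInv N (latMap N q'))) = Q.proj false y
      rw [latInv_latMap, hy']
  · set r := collarTurn (collarTurn (collarTurn q'))
    have hr1 : r.1 = -q.1 := by simp [r, collarTurn_fst, hq'1]
    have hr : r ∈ collarSet := by
      show r.1 ∈ Ioo (-5 : ℝ) 5
      rw [hr1]
      exact ⟨by linarith [hq.2], by linarith [hq.1]⟩
    refine ⟨latMap N r, ?_, ?_⟩
    · show |r.1| < 2
      rw [hr1, abs_neg]; linarith
    · show Q.proj false (P.endMap e (latInv N (latMap N r))) = Q.proj true y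
      rw [latInv_latMap, ← Q.proj_glue e r hr,
        show latTurn r = q' from collarTurn_four q', hy']

end Model

end

end Vale.Agent.P255
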