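import Vale.Agent.P255.Assembly.TestField

/-!
A nonnegative index form excludes conjugate points.
-/

open Bundle Manifold Set Filter MeasureTheory
open scoped ContDiff Topology

namespace Vale.Agent.P255

set_option maxSynthPendingDepth 3

noncomputable section

open P216.Chord

variable {E : Type*} [NormedAddCommGroup E] [NormedSpace ℝ E] [FiniteDimensional ℝ E]

/-- A field made of two smooth pieces is a test field near their junction. -/
theorem IsTestField.of_two {f f₁ f₂ : ℝ → E} {s δ : ℝ} (hδ : 0 < δ) (h₁ : ContDiff ℝ 1 f₁ ∨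
    ∀ r ∈ Icc (s - δ) (s + δ), ContDiffAt ℝ 1 f₁ r)
    (h₂ : ∀ r ∈ Icc (s - δ) (s + δ), ContDiffAt ℝ 1 f₂ r)
    (e₁ : ∀ r ∈ Icc (s - δ) s, f r = f₁ r) (e₂ : ∀ r ∈ Icc s (s + δ), f r = f₂ r) :
    IsTestField f (s - δ) (s + δ) := by
  have h₁' : ∀ r ∈ Icc (s - δ) (s + δ), ContDiffAt ℝ 1 f₁ r :=
    h₁.elim (fun h r _ => h.contDiffAt) id
  have hc : ContinuousOn f (Icc (s - δ) (s + δ)) := by
    rw [← Icc_union_Icc_eq_Icc (show s - δ ≤ s by linarith) (show s ≤ s + δ by linarith)]
    refine ContinuousOn.union_of_isClosed ?_ ?_ isClosed_Icc isClosed_Icc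
    · exact ContinuousOn.congr (fun r hr => (h₁' r ⟨hr.1, by linarith [hr.2]⟩).continuousAt.continuousWithinAt) e₁
    · exact ContinuousOn.congr (fun r hr => (h₂ r ⟨by linarith [hr.1], hr.2⟩).continuousAt.continuousWithinAt) e₂
  have hd : ∀ {F : ℝ → E}, (∀ r ∈ Icc (s - δ) (s + δ), ContDiffAt ℝ 1 F r) →
      ContinuousOn (deriv F) (Icc (s - δ) (s + δ)) := fun hF r hr =>
    ((((hF r hr).fderiv_right (m := 0) (by simp)).continuousAt).clm_apply
      (continuousAt_const (y := (1 : ℝ)))).continuousWithinAt.congr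
      (fun q _ => fderiv_apply_one_eq_deriv.symm) fderiv_apply_one_eq_deriv.symm
  obtain ⟨C₁, hC₁⟩ := isCompact_Icc.exists_bound_of_continuousOn (hd h₁')
  obtain ⟨C₂, hC₂⟩ := isCompact_Icc.exists_bound_of_continuousOn (hd h₂)
  refine ⟨hc, {s}, max C₁ C₂, fun r hr hrs => ?_⟩
  have hrI := Ioo_subset_Icc_self hr
  rcases lt_or_gt_of_ne (Finset.notMem_singleton.1 hrs) with h | h
  · have hev : f =ᶠ[𝓝 r] f₁ := eventually_of_mem (Ioo_mem_nhds hr.1 h) fun q hq =>
      e₁ q (Ioo_subset_Icc_self hq)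
    exact ⟨((h₁' r hrI).differentiableAt one_ne_zero).congr_of_eventuallyEq hev,
      ((hd h₁').continuousAt (Icc_mem_nhds hr.1 hr.2)).congr hev.deriv.symm,
      by rw [hev.deriv_eq]; exact (hC₁ r hrI).trans (le_max_left _ _)⟩
  · have hev : f =ᶠ[𝓝 r] f₂ := eventually_of_mem (Ioo_mem_nhds h hr.2) fun q hq =>
      e₂ q (Ioo_subset_Icc_self hq)
    exact ⟨((h₂ r hrI).differentiableAt one_ne_zero).congr_of_eventuallyEq hev,
      ((hd h₂).continuousAt (Icc_mem_nhds hr.1 hr.2)).congr hev.deriv.symm,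
      by rw [hev.deriv_eq]; exact (hC₂ r hrI).trans (le_max_right _ _)⟩

/-- Jacobi fields in coordinates with zero initial data vanish. -/
theorem jacobi_eq_zero {U : Set E} {G : E → E →L[ℝ] E →L[ℝ] ℝ} (hG : IsMetricOn U G)
    {x ξ : ℝ → E} {a b s₀ : ℝ} (hs₀ : s₀ ∈ Ioo a b)
    (hx : ∀ s ∈ Icc a b, ContDiffAt ℝ ∞ x s ∧ x s ∈ U)
    (hξ : ∀ s ∈ Icc a b, ContDiffAt ℝ ∞ ξ s)
    (heq : ∀ s ∈ Icc a b,
      covDeriv G x (covDeriv G x ξ) s + curvature G (x s) (ξ s) (deriv x s) (deriv x s) = 0)
    (h0 : ξ s₀ = 0) (h1 : covDeriv G x ξ s₀ = 0) : ∀ s ∈ Ioo a b, ξ s = 0 := by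
  classical
  choose Γ hΓ using fun s : Icc a b => christoffel_linear hG (hx s s.2).2 (deriv x s)
  choose R hR using fun s : Icc a b => curvature_linear hG (hx s s.2).2 (deriv x s)
  have hxc : ∀ s ∈ Icc a b, ContinuousAt x s := fun s hs => (hx s hs).1.continuousAt
  have hx'c : ∀ s ∈ Icc a b, ContinuousAt (deriv x) s := fun s hs =>
    ((((hx s hs).1.fderiv_right (m := 0) (by simp)).continuousAt).clm_apply
      (continuousAt_const (y := (1 : ℝ)))).congr
      (Eventually.of_forall fun r => fderiv_apply_one_eq_deriv)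
  have hbound : ∃ C : ℝ, 0 ≤ C ∧ ∀ s : Icc a b, ‖Γ s‖ ≤ C ∧ ‖R s‖ ≤ C := by
    have hK : IsCompact (Icc a b ×ˢ Metric.closedBall (0 : E) 1) :=
      isCompact_Icc.prod (isCompact_closedBall _ _)
    have hc1 : ContinuousOn (fun q : ℝ × E => christoffel G (x q.1) (deriv x q.1) q.2)
        (Icc a b ×ˢ Metric.closedBall (0 : E) 1) := fun q hq =>
      (continuousAt_christoffel hG (y := fun q : ℝ × E => x q.1) (p := q) (hx q.1 hq.1).2 (ContinuousAt.comp (g := x) (f := fun q : ℝ × E => q.1) (hxc q.1 hq.1) continuousAt_fst)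
        (ContinuousAt.comp (g := deriv x) (f := fun q : ℝ × E => q.1) (hx'c q.1 hq.1) continuousAt_fst) continuousAt_snd).continuousWithinAt
    have hc2 : ContinuousOn
        (fun q : ℝ × E => curvature G (x q.1) q.2 (deriv x q.1) (deriv x q.1))
        (Icc a b ×ˢ Metric.closedBall (0 : E) 1) := fun q hq =>
      (continuousAt_curvature hG (y := fun q : ℝ × E => x q.1) (p := q) (hx q.1 hq.1).2 (ContinuousAt.comp (g := x) (f := fun q : ℝ × E => q.1) (hxc q.1 hq.1) continuousAt_fst)
        continuousAt_snd (ContinuousAt.comp (g := deriv x) (f := fun q : ℝ × E => q.1) (hx'c q.1 hq.1) continuousAt_fst)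
        (ContinuousAt.comp (g := deriv x) (f := fun q : ℝ × E => q.1) (hx'c q.1 hq.1) continuousAt_fst)).continuousWithinAt
    obtain ⟨C₁, hC₁⟩ := hK.exists_bound_of_continuousOn hc1
    obtain ⟨C₂, hC₂⟩ := hK.exists_bound_of_continuousOn hc2
    refine ⟨|C₁| + |C₂|, by positivity, fun s => ?_⟩
    constructor <;>
      refine ContinuousLinearMap.opNorm_le_of_unit_norm (by positivity) fun u hu => ?_
    · have := hC₁ (s, u) ⟨s.2, by simp [hu]⟩
      rw [hΓ s u]
      linarith [le_abs_self C₁, abs_nonneg C₂]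
    · have := hC₂ (s, u) ⟨s.2, by simp [hu]⟩
      rw [hR s u]
      linarith [le_abs_self C₂, abs_nonneg C₁]
  obtain ⟨C, hC, hCb⟩ := hbound
  set v : ℝ → E × E → E × E := fun s p =>
    if hs : s ∈ Icc a b then (p.2 - Γ ⟨s, hs⟩ p.1, -(R ⟨s, hs⟩ p.1) - Γ ⟨s, hs⟩ p.2) else 0
  have hv : ∀ s ∈ Ioo a b, LipschitzOnWith (2 * C + 1).toNNReal (v s) univ := by
    intro s hs
    refine LipschitzOnWith.of_dist_le_mul fun p _ q _ => ?_
    simp only [v, dif_pos (Ioo_subset_Icc_self hs), dist_eq_norm,
      Real.coe_toNNReal _ (show 0 ≤ 2 * C + 1 by linarith)]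
    set Γs := Γ ⟨s, Ioo_subset_Icc_self hs⟩
    set Rs := R ⟨s, Ioo_subset_Icc_self hs⟩
    obtain ⟨hΓb, hRb⟩ := hCb ⟨s, Ioo_subset_Icc_self hs⟩
    have hp1 : ‖(p - q).1‖ ≤ ‖p - q‖ := norm_fst_le _
    have hp2 : ‖(p - q).2‖ ≤ ‖p - q‖ := norm_snd_le _
    rw [Prod.norm_def]
    refine max_le ?_ ?_
    · rw [show ((p.2 - Γs p.1, -(Rs p.1) - Γs p.2) - (q.2 - Γs q.1, -(Rs q.1) - Γs q.2)).1 =
        (p - q).2 - Γs (p - q).1 by simp [map_sub]; abel]
      refine (norm_sub_le _ _).trans ?_
      have := Γs.le_of_opNorm_le hΓb (p - q).1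
      nlinarith [norm_nonneg (p - q)]
    · rw [show ((p.2 - Γs p.1, -(Rs p.1) - Γs p.2) - (q.2 - Γs q.1, -(Rs q.1) - Γs q.2)).2 =
        -(Rs (p - q).1) - Γs (p - q).2 by simp [map_sub]; abel]
      refine (norm_sub_le _ _).trans ?_
      rw [norm_neg]
      have := Γs.le_of_opNorm_le hΓb (p - q).2
      have := Rs.le_of_opNorm_le hRb (p - q).1
      nlinarith [norm_nonneg (p - q)]
  have hz : ∀ s ∈ Ioo a b, HasDerivAt (fun r => (ξ r, covDeriv G x ξ r))
      (v s (ξ s, covDeriv G x ξ s)) s := by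
    intro s hs
    have hsI := Ioo_subset_Icc_self hs
    simp only [v, dif_pos hsI]
    have h2 := ((contDiffAt_covDeriv hG (hx s hsI).2 (hx s hsI).1 (hξ s hsI)).differentiableAt
      (by simp)).hasDerivAt
    have h3 := ((hξ s hsI).differentiableAt (by simp)).hasDerivAt
    have e1 : deriv ξ s = covDeriv G x ξ s - Γ ⟨s, hsI⟩ (ξ s) := by
      rw [hΓ]; simp [covDeriv]
    have e2 : deriv (covDeriv G x ξ) s =
        -(R ⟨s, hsI⟩ (ξ s)) - Γ ⟨s, hsI⟩ (covDeriv G x ξ s) := by
      have := heq s hsI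
      rw [covDeriv] at this
      rw [hΓ, hR, eq_sub_iff_add_eq, eq_neg_iff_add_eq_zero]
      exact this
    rw [e1] at h3
    rw [e2] at h2
    exact h3.prodMk h2
  have hzero : ∀ s ∈ Ioo a b, HasDerivAt (fun _ : ℝ => (0 : E × E)) (v s 0) s := by
    intro s hs
    rw [show v s 0 = 0 by simp [v, dif_pos (Ioo_subset_Icc_self hs)]]
    exact hasDerivAt_const s (0 : E × E)
  have := ODE_solution_unique_of_mem_Ioo (s := fun _ => univ) hv hs₀
    (fun s hs => ⟨hz s hs, mem_univ _⟩) (fun s hs => ⟨hzero s hs, mem_univ _⟩)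
    (by simp [h0, h1])
  exact fun s hs => congrArg Prod.fst (this hs)

variable {M : Type*} [TopologicalSpace M] [ChartedSpace E M] [IsManifold 𝓘(ℝ, E) ∞ M]
  {g : ContMDiffRiemannianMetric 𝓘(ℝ, E) ∞ E (fun x : M => TangentSpace 𝓘(ℝ, E) x)}

/-- Near each time a curve stays in the chart centred at its position. -/
theorem exists_chart_window {c : ℝ → M} (hc : P216.IsGeodesic g c)
    (K : ∀ t, TangentSpace 𝓘(ℝ, E) (c t)) (s : ℝ) :
    ∃ δ > 0, ∀ r ∈ Icc (s - δ) (s + δ),
      (Coord.chart g (c s)).Reads c K (fun q => extChartAt 𝓘(ℝ, E) (c s) (c q))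
        (fieldInChart (c s) c K) r ∧
      ContDiffAt ℝ ∞ (fun q => extChartAt 𝓘(ℝ, E) (c s) (c q)) r := by
  obtain ⟨δ, hδ, h⟩ := Metric.nhds_basis_closedBall.mem_iff.1
    ((hc.1 s).continuousAt.eventually_mem ((isOpen_extChartAt_source (c s)).mem_nhds
      (mem_extChartAt_source (I := 𝓘(ℝ, E)) (c s))))
  rw [Real.closedBall_eq_Icc] at h
  refine ⟨δ, hδ, fun r hr => ?_⟩
  have hR := Coord.chart_reads (g := g) K (hc.1 r).continuousAt (h hr)
  exact ⟨hR, (Coord.geodesic _ hc hR.mem hR.cont hR.curve).1⟩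

/-- The Jacobi equation in a chart window. -/
theorem jacobi_window {c : ℝ → M} (hc : P216.IsGeodesic g c)
    {J : ∀ t, TangentSpace 𝓘(ℝ, E) (c t)} (hJ : IsJacobiField g c J) (s : ℝ) :
    ∃ δ > 0, ∀ r ∈ Icc (s - δ) (s + δ),
      (Coord.chart g (c s)).Reads c J (fun q => extChartAt 𝓘(ℝ, E) (c s) (c q))
        (fieldInChart (c s) c J) r ∧
      (ContDiffAt ℝ ∞ (fun q => extChartAt 𝓘(ℝ, E) (c s) (c q)) r ∧
      ContDiffAt ℝ ∞ (fieldInChart (c s) c J) r ∧
      covDeriv (P216.metricInChart g (c s)) (fun q => extChartAt 𝓘(ℝ, E) (c s) (c q))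
          (covDeriv (P216.metricInChart g (c s)) (fun q => extChartAt 𝓘(ℝ, E) (c s) (c q))
            (fieldInChart (c s) c J)) r +
        curvature (P216.metricInChart g (c s)) (extChartAt 𝓘(ℝ, E) (c s) (c r))
          (fieldInChart (c s) c J r)
          (deriv (fun q => extChartAt 𝓘(ℝ, E) (c s) (c q)) r)
          (deriv (fun q => extChartAt 𝓘(ℝ, E) (c s) (c q)) r) = 0) := by
  obtain ⟨δ, hδ, h⟩ := exists_chart_window hc J s
  exact ⟨δ, hδ, fun r hr => ⟨(h r hr).1, (h r hr).2,
    ((Coord.chart g (c s)).jacobi hc hJ (h r hr).1).1,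
    ((Coord.chart g (c s)).jacobi hc hJ (h r hr).1).2⟩⟩

/-- Along a Jacobi field the integrand is the derivative of the pairing. -/
theorem hasDerivAt_flux {c : ℝ → M} (hc : P216.IsGeodesic g c)
    {J : ∀ t, TangentSpace 𝓘(ℝ, E) (c t)} (hJ : IsJacobiField g c J) (s : ℝ) :
    HasDerivAt (flux g c J) (dens g c J s) s := by
  obtain ⟨δ, hδ, h⟩ := jacobi_window hc hJ s
  set G := P216.metricInChart g (c s)
  set x : ℝ → E := fun q => extChartAt 𝓘(ℝ, E) (c s) (c q)
  set ξ : ℝ → E := fieldInChart (c s) c J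
  have hs : s ∈ Icc (s - δ) (s + δ) := ⟨by linarith, by linarith⟩
  have hev : flux g c J =ᶠ[𝓝 s] fun r => G (x r) (ξ r) (covDeriv G x ξ r) := by
    filter_upwards [Icc_mem_nhds (show s - δ < s by linarith) (show s < s + δ by linarith)] with r hr
    obtain ⟨hR, hx, hξ, -⟩ := h r hr
    exact (hR.dens_eq (hx.differentiableAt (by simp)) (hξ.differentiableAt (by simp))).2
  obtain ⟨hR, hx, hξ, heq⟩ := h s hs
  have hG := (Coord.chart g (c s)).isMetric
  have hd := hasDerivAt_pairing hG hR.mem (hx.differentiableAt (by simp))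
    (hξ.differentiableAt (by simp))
    ((contDiffAt_covDeriv hG hR.mem hx hξ).differentiableAt (by simp))
  refine (hd.congr_of_eventuallyEq hev).congr_deriv ?_
  rw [(hR.dens_eq (hx.differentiableAt (by simp)) (hξ.differentiableAt (by simp))).1,
    ]
  show G (x s) (covDeriv G x ξ s) (covDeriv G x ξ s) +
      G (x s) (ξ s) (covDeriv G x (covDeriv G x ξ) s) = indexDensity G x ξ s
  rw [eq_neg_of_add_eq_zero_left heq, map_neg]
  have e : ∀ w, G (x s) (ξ s) w = G (x s) w (ξ s) := fun w => hG.symm (x s) hR.mem (ξ s) w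
  rw [indexDensity, e]
  ring

theorem integral_congr_open {f g : ℝ → ℝ} {u v : ℝ} (huv : u ≤ v)
    (h : ∀ r ∈ Ioo u v, f r = g r) : ∫ r in u..v, f r = ∫ r in u..v, g r := by
  refine intervalIntegral.integral_congr_ae ?_
  filter_upwards [measure_eq_zero_iff_ae_notMem.1 (Real.volume_singleton (a := v))] with r hr hI
  rw [uIoc_of_le huv] at hI
  exact h r ⟨hI.1, lt_of_le_of_ne hI.2 hr⟩

/-- A nonnegative index form on all intervals excludes conjugate points. -/
theorem noConjugatePoints_of_index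
    (hidx : ∀ c : ℝ → M, P216.IsGeodesic g c → ∀ (K : ∀ t, TangentSpace 𝓘(ℝ, E) (c t)) (a b : ℝ),
      a ≤ b → IsTestAlong c K a b → K a = 0 → K b = 0 → 0 ≤ ∫ s in a..b, dens g c K s) :
    NoConjugatePoints g := by
  intro c hc J hJ a b hab ha hb
  wlog hlt : a < b generalizing a b
  · exact this b a hab.symm hb ha (lt_of_le_of_ne (not_lt.1 hlt) hab.symm)
  -- the covariant derivative vanishes at `b`
  have key : covDeriv (P216.metricInChart g (c b)) (fun q => extChartAt 𝓘(ℝ, E) (c b) (c q))
      (fieldInChart (c b) c J) b = 0 := by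
    obtain ⟨δ₀, hδ₀, h₀⟩ := jacobi_window hc hJ b
    set δ := min δ₀ (b - a) / 2
    have hδ : 0 < δ := by
      have := lt_min hδ₀ (sub_pos.2 hlt)
      positivity
    have hδδ : δ < δ₀ := by
      have := min_le_left δ₀ (b - a)
      simp only [δ]; linarith
    have hδab : δ < b - a := by
      have := min_le_right δ₀ (b - a)
      have := lt_min hδ₀ (sub_pos.2 hlt)
      simp only [δ]; linarith
    have hwin : ∀ r ∈ Icc (b - δ) (b + δ), r ∈ Icc (b - δ₀) (b + δ₀) := fun r hr =>
      ⟨by linarith [hr.1], by linarith [hr.2]⟩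
    set C := Coord.chart g (c b)
    set x : ℝ → E := fun q => extChartAt 𝓘(ℝ, E) (c b) (c q)
    set ξ : ℝ → E := fieldInChart (c b) c J
    set w := covDeriv C.G x ξ b
    show w = 0
    let φ : ContDiffBump b := ⟨δ / 2, δ, by linarith, by linarith⟩
    have hφ0 : ∀ r, δ ≤ |r - b| → φ r = 0 := fun r hr =>
      φ.zero_of_le_dist (by rwa [Real.dist_eq])
    set W : ∀ r, TangentSpace 𝓘(ℝ, E) (c r) := fun r =>
      (φ r • (mfderiv 𝓘(ℝ, E) 𝓘(ℝ, E) C.ψ (x r) w : E) : E)
    set K : ℝ → ∀ r, TangentSpace 𝓘(ℝ, E) (c r) := fun η r =>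
      ((if r ∈ Icc a b then (J r : E) else 0) + η • (W r : E) : E)
    have hlin : ∀ (p : M) η r, fieldInChart p c (K η) r =
        (if r ∈ Icc a b then fieldInChart p c J r else 0) + η • fieldInChart p c W r := by
      intro p η r
      set L : E →L[ℝ] E := mfderiv 𝓘(ℝ, E) 𝓘(ℝ, E) (extChartAt 𝓘(ℝ, E) p) (c r)
      show L ((if r ∈ Icc a b then (J r : E) else 0) + η • (W r : E)) =
        (if r ∈ Icc a b then L (J r) else 0) + η • L (W r)
      erw [map_add, map_smul]
      split_ifs <;> first | rfl | (erw [map_zero])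
    have hW : ∀ r ∈ Icc (b - δ₀) (b + δ₀), fieldInChart (c b) c W r = φ r • w := by
      intro r hr
      have hR := (h₀ r hr).1
      set D := Par.chart (E := E) (c b)
      have hm : c r ∈ D.W := hR.curve.self_of_nhds ▸ D.mapsψ hR.mem
      have h2 := (D.smoothψ.contMDiffAt (D.openU.mem_nhds hR.mem)).mdifferentiableAt
        (by simp : (∞ : WithTop ℕ∞) ≠ 0)
      have h1 := (D.smoothφ.contMDiffAt (D.openW.mem_nhds (D.mapsψ hR.mem))).mdifferentiableAt
        (by simp : (∞ : WithTop ℕ∞) ≠ 0)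
      have he : D.φ ∘ D.ψ =ᶠ[𝓝 (x r)] id := eventually_of_mem (D.openU.mem_nhds hR.mem) D.left
      have hh := congrArg (fun T : E →L[ℝ] E => T w)
        ((mfderiv_comp (x r) h1 h2).symm.trans (he.mfderiv_eq.trans mfderiv_id))
      have hp : D.ψ (x r) = c r := hR.curve.self_of_nhds
      set L : E →L[ℝ] E := mfderiv 𝓘(ℝ, E) 𝓘(ℝ, E) (extChartAt 𝓘(ℝ, E) (c b)) (c r) with hL
      show L (φ r • (mfderiv 𝓘(ℝ, E) 𝓘(ℝ, E) C.ψ (x r) w : E)) = φ r • w
      erw [map_smul]
      congr 1
      rw [hL, ← hp]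
      exact hh
    have hWsmooth : ∀ s r : ℝ, c r ∈ (extChartAt 𝓘(ℝ, E) (c s)).source →
        ContDiffAt ℝ 1 (fieldInChart (c s) c W) r := by
      intro s r hr
      by_cases hfar : δ < |r - b|
      · refine (contDiffAt_const (c := (0 : E))).congr_of_eventuallyEq ?_
        have hopen : IsOpen {q : ℝ | δ < |q - b|} :=
          isOpen_lt continuous_const (continuous_id.sub continuous_const).abs
        filter_upwards [hopen.mem_nhds hfar] with q hq
        have : (W q : E) = 0 := by
          show φ q • _ = (0 : E)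
          rw [hφ0 q (le_of_lt hq)]
          exact zero_smul ℝ _
        show mfderiv 𝓘(ℝ, E) 𝓘(ℝ, E) (extChartAt 𝓘(ℝ, E) (c s)) (c q) (W q) = 0
        erw [this]
        exact map_zero _
      · push Not at hfar
        have hrI : r ∈ Ioo (b - δ₀) (b + δ₀) :=
          ⟨by linarith [(abs_le.1 hfar).1], by linarith [(abs_le.1 hfar).2]⟩
        obtain ⟨hR, hx, -, -⟩ := h₀ r (Ioo_subset_Icc_self hrI)
        have hRW : C.Reads c W x (fieldInChart (c b) c W) r :=
          Coord.chart_reads W (hc.1 r).continuousAt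
            (hR.curve.self_of_nhds ▸ (Par.chart (E := E) (c b)).mapsψ hR.mem)
        have hsm : ContDiffAt ℝ ∞ (fieldInChart (c b) c W) r :=
          (φ.contDiff.contDiffAt.smul contDiffAt_const).congr_of_eventuallyEq
            (eventually_of_mem (Ioo_mem_nhds hrI.1 hrI.2) fun q hq =>
              hW q (Ioo_subset_Icc_self hq))
        exact ((hRW.contDiffAt (Coord.chart_reads (g := g) W (hc.1 r).continuousAt hr) hx).2
          hsm).of_le (by simp)
    have hJ0 : ∀ p : M, fieldInChart p c J a = 0 ∧ fieldInChart p c J b = 0 := fun p => by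
      constructor <;> show mfderiv 𝓘(ℝ, E) 𝓘(ℝ, E) (extChartAt 𝓘(ℝ, E) p) _ _ = 0
      · rw [ha]; exact map_zero _
      · rw [hb]; exact map_zero _
    have hK : ∀ η, IsTestAlong c (K η) a (b + δ) := by
      intro η s hs
      obtain ⟨d, hd, hwd⟩ := jacobi_window hc hJ s
      -- a window around `s` without other break points
      obtain ⟨e, he, hea, heb⟩ : ∃ e > 0, (s ≠ a → e < |s - a|) ∧ (s ≠ b → e < |s - b|) := by
        refine ⟨min (if s = a then 1 else |s - a| / 2) (if s = b then 1 else |s - b| / 2),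
          lt_min ?_ ?_, fun h => ?_, fun h => ?_⟩
        · split_ifs with h
          · exact one_pos
          · exact half_pos (abs_pos.2 (sub_ne_zero.2 h))
        · split_ifs with h
          · exact one_pos
          · exact half_pos (abs_pos.2 (sub_ne_zero.2 h))
        · refine lt_of_le_of_lt (min_le_left _ _) ?_
          rw [if_neg h]
          linarith [abs_pos.2 (sub_ne_zero.2 h)]
        · refine lt_of_le_of_lt (min_le_right _ _) ?_
          rw [if_neg h]
          linarith [abs_pos.2 (sub_ne_zero.2 h)]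
      set ρ := min d e
      have hρ : 0 < ρ := lt_min hd he
      set ξs : ℝ → E := fieldInChart (c s) c J
      have hsmW : ∀ r ∈ Icc (s - ρ) (s + ρ), ContDiffAt ℝ 1 (fun q => η • fieldInChart (c s) c W q) r :=
        fun r hr => by
          obtain ⟨hR, -⟩ := hwd r ⟨by linarith [hr.1, min_le_left d e], by linarith [hr.2, min_le_left d e]⟩
          exact (hWsmooth s r
            (hR.curve.self_of_nhds ▸ (Par.chart (E := E) (c s)).mapsψ hR.mem)).const_smul η
      have hsm : ∀ r ∈ Icc (s - ρ) (s + ρ),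
          ContDiffAt ℝ 1 (fun q => ξs q + η • fieldInChart (c s) c W q) r := fun r hr =>
        ((hwd r ⟨by linarith [hr.1, min_le_left d e], by linarith [hr.2, min_le_left d e]⟩).2.2.1.of_le
          (by simp)).add (hsmW r hr)
      refine ⟨ρ, hρ, IsTestField.of_two hρ
        (f₁ := if a < s ∧ s ≤ b then (fun q => ξs q + η • fieldInChart (c s) c W q)
          else fun q => η • fieldInChart (c s) c W q)
        (f₂ := if a ≤ s ∧ s < b then (fun q => ξs q + η • fieldInChart (c s) c W q)
          else fun q => η • fieldInChart (c s) c W q)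
        (Or.inr ?_) ?_ ?_ ?_⟩
      · intro r hr; split_ifs
        exacts [hsm r hr, hsmW r hr]
      · intro r hr; split_ifs
        exacts [hsm r hr, hsmW r hr]
      · intro r hr
        rw [hlin]
        have hre : s - e ≤ r := by linarith [hr.1, min_le_right d e]
        by_cases hsab : a < s ∧ s ≤ b
        · rw [if_pos hsab, if_pos]
          refine ⟨?_, hr.2.trans hsab.2⟩
          have := hea hsab.1.ne'
          rw [abs_of_pos (sub_pos.2 hsab.1)] at this
          linarith
        · rw [if_neg hsab]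
          show _ + η • fieldInChart (c s) c W r = η • fieldInChart (c s) c W r
          split_ifs with hrI
          · have : r = a ∨ r = b := by
              rcases not_and_or.1 hsab with h | h
              · left; linarith [hrI.1, hr.2, not_lt.1 h]
              · exfalso
                have h' := heb (not_le.1 h).ne'
                rw [abs_of_pos (sub_pos.2 (not_le.1 h))] at h'
                linarith [hrI.2]
            rcases this with rfl | rfl
            · rw [(hJ0 (c s)).1, zero_add]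
            · rw [(hJ0 (c s)).2, zero_add]
          · rw [zero_add]
      · intro r hr
        rw [hlin]
        have hre : r ≤ s + e := by linarith [hr.2, min_le_right d e]
        by_cases hsab : a ≤ s ∧ s < b
        · rw [if_pos hsab, if_pos]
          refine ⟨hsab.1.trans hr.1, ?_⟩
          have := heb hsab.2.ne
          rw [abs_of_neg (sub_neg.2 hsab.2)] at this
          linarith
        · rw [if_neg hsab]
          show _ + η • fieldInChart (c s) c W r = η • fieldInChart (c s) c W r
          split_ifs with hrI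
          · have : r = a ∨ r = b := by
              rcases not_and_or.1 hsab with h | h
              · exfalso; linarith [hs.1, not_le.1 h]
              · right; linarith [hrI.2, hr.1, not_lt.1 h]
            rcases this with rfl | rfl
            · rw [(hJ0 (c s)).1, zero_add]
            · rw [(hJ0 (c s)).2, zero_add]
          · rw [zero_add]
    have hKend : ∀ η, K η a = 0 ∧ K η (b + δ) = 0 := by
      intro η
      have h1 : φ a = 0 := hφ0 a (by rw [abs_sub_comm, abs_of_pos (sub_pos.2 hlt)]; linarith)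
      have h2 : φ (b + δ) = 0 := hφ0 _ (by simp [abs_of_pos hδ])
      have key : ∀ (j v : E) (t : ℝ), j = 0 → t = 0 → j + η • (t • v) = (0 : E) :=
        fun j v t hj ht => by rw [hj, ht, zero_smul, smul_zero, add_zero]
      refine ⟨?_, ?_⟩
      · show HAdd.hAdd (α := E) (β := E) (if a ∈ Icc a b then (J a : E) else 0)
          (η • (φ a • (mfderiv 𝓘(ℝ, E) 𝓘(ℝ, E) C.ψ (x a) w : E) : E)) = (0 : E)
        exact key _ _ _ ((if_pos ⟨le_rfl, hlt.le⟩).trans ha) h1
      · show HAdd.hAdd (α := E) (β := E) (if b + δ ∈ Icc a b then (J (b + δ) : E) else 0)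
          (η • (φ (b + δ) • (mfderiv 𝓘(ℝ, E) 𝓘(ℝ, E) C.ψ (x (b + δ)) w : E) : E)) = (0 : E)
        exact key _ _ _ (if_neg (fun h => by linarith [h.2])) h2
    -- the index form as a polynomial in `η`
    set Z : ℝ → E := fun r => φ r • w
    have hG := C.isMetric
    have hxU : ∀ r ∈ Icc (b - δ) (b + δ), ContDiffAt ℝ ∞ x r ∧ x r ∈ C.U := fun r hr =>
      ⟨(h₀ r (hwin r hr)).2.1, (h₀ r (hwin r hr)).1.mem⟩
    have hξ : ∀ r ∈ Icc (b - δ) (b + δ), ContDiffAt ℝ ∞ ξ r := fun r hr => (h₀ r (hwin r hr)).2.2.1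
    have hZ : ContDiff ℝ ∞ Z := φ.contDiff.smul contDiff_const
    have hquad : ∀ η, ∀ r ∈ Ioo (b - δ) b, dens g c (K η) r =
        dens g c J r + η * (2 * (C.G (x r) (covDeriv C.G x ξ r) (covDeriv C.G x Z r) -
          C.G (x r) (curvature C.G (x r) (ξ r) (deriv x r) (deriv x r)) (Z r))) +
        η ^ 2 * indexDensity C.G x Z r := by
      intro η r hr
      have hrI : r ∈ Icc (b - δ) (b + δ) := ⟨hr.1.le, by linarith [hr.2]⟩
      have hev : fieldInChart (c b) c (K η) =ᶠ[𝓝 r] fun q => ξ q + η • Z q := by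
        filter_upwards [Ioo_mem_nhds hr.1 hr.2] with q hq
        rw [hlin, if_pos ⟨by linarith [hq.1], hq.2.le⟩,
          hW q (hwin q ⟨hq.1.le, by linarith [hq.2]⟩)]
      have hd := ((hξ r hrI).differentiableAt (by simp)).add
        (((hZ.differentiable (by simp)) r).const_smul η)
      have hxd := (hxU r hrI).1.differentiableAt (by simp : (∞ : WithTop ℕ∞) ≠ 0)
      have hR : C.Reads c (K η) x (fieldInChart (c b) c (K η)) r := Coord.chart_reads (K η)
        (hc.1 r).continuousAt ((h₀ r (hwin r hrI)).1.curve.self_of_nhds ▸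
          (Par.chart (E := E) (c b)).mapsψ (hxU r hrI).2)
      rw [(hR.dens_eq hxd (hd.congr_of_eventuallyEq hev)).1,
        ((h₀ r (hwin r hrI)).1.dens_eq hxd ((hξ r hrI).differentiableAt (by simp))).1]
      obtain ⟨T, hT⟩ := christoffel_linear hG (hxU r hrI).2 (deriv x r)
      obtain ⟨R, hR'⟩ := curvature_linear hG (hxU r hrI).2 (deriv x r)
      have hcov : covDeriv C.G x (fieldInChart (c b) c (K η)) r =
          covDeriv C.G x ξ r + η • covDeriv C.G x Z r := by
        unfold covDeriv
        rw [hev.deriv_eq, hev.eq_of_nhds, ← hT, ← hT, ← hT,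
          show deriv (fun q => ξ q + η • Z q) r = deriv ξ r + η • deriv Z r from
            (((hξ r hrI).differentiableAt (by simp)).hasDerivAt.add
              (((hZ.differentiable (by simp)) r).hasDerivAt.const_smul η)).deriv,
          map_add, map_smul, smul_add]
        abel
      show indexDensity C.G x _ r = indexDensity C.G x ξ r + _ + _
      unfold indexDensity
      rw [hcov, hev.eq_of_nhds, ← hR', ← hR', ← hR']
      simp only [map_add, map_smul, add_apply,
        smul_apply, smul_eq_mul]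
      have e1 : C.G (x r) (R (Z r)) (ξ r) = C.G (x r) (R (ξ r)) (Z r) := by
        rw [hR', hR', curvature_pair_symm hG (hxU r hrI).2]
      rw [e1, hG.symm _ (hxU r hrI).2 (covDeriv C.G x Z r) (covDeriv C.G x ξ r)]
      ring
    have hright : ∀ η, ∀ r ∈ Ioo b (b + δ),
        dens g c (K η) r = η ^ 2 * indexDensity C.G x Z r := by
      intro η r hr
      have hrI : r ∈ Icc (b - δ) (b + δ) := ⟨by linarith [hr.1], hr.2.le⟩
      have hev : fieldInChart (c b) c (K η) =ᶠ[𝓝 r] fun q => η • Z q := by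
        filter_upwards [Ioo_mem_nhds hr.1 hr.2] with q hq
        rw [hlin, if_neg (fun h => by linarith [hq.1, h.2]), zero_add,
          hW q (hwin q ⟨by linarith [hq.1], hq.2.le⟩)]
      have hd := ((hZ.differentiable (by simp)) r).const_smul η
      have hxd := (hxU r hrI).1.differentiableAt (by simp : (∞ : WithTop ℕ∞) ≠ 0)
      have hR : C.Reads c (K η) x (fieldInChart (c b) c (K η)) r := Coord.chart_reads (K η)
        (hc.1 r).continuousAt ((h₀ r (hwin r hrI)).1.curve.self_of_nhds ▸
          (Par.chart (E := E) (c b)).mapsψ (hxU r hrI).2)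
      rw [(hR.dens_eq hxd (hd.congr_of_eventuallyEq hev)).1]
      obtain ⟨T, hT⟩ := christoffel_linear hG (hxU r hrI).2 (deriv x r)
      obtain ⟨R, hR'⟩ := curvature_linear hG (hxU r hrI).2 (deriv x r)
      have hcov : covDeriv C.G x (fieldInChart (c b) c (K η)) r = η • covDeriv C.G x Z r := by
        unfold covDeriv
        rw [hev.deriv_eq, hev.eq_of_nhds, ← hT, ← hT,
          show deriv (fun q => η • Z q) r = η • deriv Z r from
            (((hZ.differentiable (by simp)) r).hasDerivAt.const_smul η).deriv, map_smul, smul_add]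
      unfold indexDensity
      rw [hcov, hev.eq_of_nhds, ← hR', ← hR']
      simp only [map_smul, smul_apply, smul_eq_mul]
      ring
    have hleft : ∀ η, ∀ r ∈ Ioo a (b - δ), dens g c (K η) r = dens g c J r := by
      intro η r hr
      obtain ⟨d, hd, hwd⟩ := jacobi_window hc hJ r
      obtain ⟨hR, hx, hξr, -⟩ := hwd r ⟨by linarith, by linarith⟩
      have hev : fieldInChart (c r) c (K η) =ᶠ[𝓝 r] fieldInChart (c r) c J := by
        filter_upwards [Ioo_mem_nhds hr.1 hr.2] with q hq
        have : φ q = 0 := hφ0 q (by rw [abs_of_nonpos (by linarith [hq.2])]; linarith [hq.2])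
        rw [hlin, if_pos ⟨hq.1.le, by linarith [hq.2]⟩]
        have hW0 : fieldInChart (c r) c W q = 0 := by
          show mfderiv 𝓘(ℝ, E) 𝓘(ℝ, E) (extChartAt 𝓘(ℝ, E) (c r)) (c q) (W q) = 0
          have h0 : (W q : E) = 0 := by
            show φ q • _ = (0 : E)
            rw [this]
            exact zero_smul ℝ _
          erw [h0]
          exact map_zero _
        rw [hW0, smul_zero, add_zero]
      unfold dens indexDensity
      rw [covDeriv_congr EventuallyEq.rfl hev, hev.eq_of_nhds]
    set cross : ℝ → ℝ := fun r => 2 * (C.G (x r) (covDeriv C.G x ξ r) (covDeriv C.G x Z r) -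
      C.G (x r) (curvature C.G (x r) (ξ r) (deriv x r) (deriv x r)) (Z r))
    set B := (∫ r in (b - δ)..b, indexDensity C.G x Z r) + ∫ r in b..(b + δ), indexDensity C.G x Z r
    have hcross : ∀ r ∈ Icc (b - δ) b,
        HasDerivAt (fun q => 2 * C.G (x q) (covDeriv C.G x ξ q) (Z q)) (cross r) r := by
      intro r hr
      have hrI : r ∈ Icc (b - δ) (b + δ) := ⟨hr.1, by linarith [hr.2]⟩
      refine ((hasDerivAt_pairing hG (hxU r hrI).2 ((hxU r hrI).1.differentiableAt (by simp))
        ((contDiffAt_covDeriv hG (hxU r hrI).2 (hxU r hrI).1 (hξ r hrI)).differentiableAt (by simp))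
        ((hZ.differentiable (by simp)) r)).const_mul 2).congr_deriv ?_
      simp only [cross]
      rw [show covDeriv C.G x (covDeriv C.G x ξ) r =
          -curvature C.G (x r) (ξ r) (deriv x r) (deriv x r) from
          eq_neg_of_add_eq_zero_left (h₀ r (hwin r hrI)).2.2.2, map_neg, neg_apply]
      ring
    have hcc : ContinuousOn cross (Icc (b - δ) b) := by
      intro r hr
      have hrI : r ∈ Icc (b - δ) (b + δ) := ⟨hr.1, by linarith [hr.2]⟩
      have hxd := (hxU r hrI).1.continuousAt
      have hx'c : ContinuousAt (deriv x) r :=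
        ((((hxU r hrI).1.fderiv_right (m := 0) (by simp)).continuousAt).clm_apply
          (continuousAt_const (y := (1 : ℝ)))).congr
          (Eventually.of_forall fun q => fderiv_apply_one_eq_deriv)
      have hGc : ContinuousAt (fun q => C.G (x q)) r :=
        (hG.smooth.continuousOn.continuousAt (hG.isOpen.mem_nhds (hxU r hrI).2)).comp hxd
      exact (continuousAt_const.mul (((hGc.clm_apply
        (contDiffAt_covDeriv hG (hxU r hrI).2 (hxU r hrI).1 (hξ r hrI)).continuousAt).clm_apply
        (contDiffAt_covDeriv hG (hxU r hrI).2 (hxU r hrI).1 hZ.contDiffAt).continuousAt).sub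
        ((hGc.clm_apply (continuousAt_curvature hG (hxU r hrI).2 hxd (hξ r hrI).continuousAt hx'c
          hx'c)).clm_apply hZ.continuous.continuousAt))).continuousWithinAt
    have hIZ : ∀ u v, b - δ ≤ u → u ≤ v → v ≤ b + δ →
        IntervalIntegrable (indexDensity C.G x Z) volume u v := fun u v hu huv hv => by
      rw [intervalIntegrable_iff_integrableOn_Icc_of_le huv]
      refine integrableOn_indexDensity hG (fun r hr => hxU r ⟨hu.trans hr.1, hr.2.trans hv⟩) ?_
      exact IsTestField.of_locally fun r _ => ⟨1, one_pos, IsTestField.of_two one_pos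
        (Or.inl (hZ.of_le (by simp))) (fun q _ => (hZ.of_le (by simp)).contDiffAt)
        (fun _ _ => rfl) fun _ _ => rfl⟩
    have hJd : ∀ u v : ℝ, u ≤ v → IntervalIntegrable (dens g c J) volume u v := fun u v huv => by
      rw [intervalIntegrable_iff_integrableOn_Icc_of_le huv]
      refine integrableOn_dens hc fun s _ => ?_
      obtain ⟨d, hd, hwd⟩ := jacobi_window hc hJ s
      exact ⟨d, hd, IsTestField.of_two hd
        (Or.inr fun r hr => (hwd r hr).2.2.1.of_le (by simp))
        (fun r hr => (hwd r hr).2.2.1.of_le (by simp)) (fun _ _ => rfl) fun _ _ => rfl⟩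
    have hfl : ∀ u v : ℝ, u ≤ v → ∫ r in u..v, dens g c J r = flux g c J v - flux g c J u :=
      fun u v huv => intervalIntegral.integral_eq_sub_of_hasDerivAt
        (fun r _ => hasDerivAt_flux hc hJ r) (hJd u v huv)
    have hflux0 : flux g c J a = 0 ∧ flux g c J b = 0 := by
      unfold flux
      rw [(hJ0 _).1, (hJ0 _).2, map_zero, map_zero]
      simp
    have hxb : x b ∈ C.U := (hxU b ⟨by linarith, by linarith⟩).2
    have hI : ∀ η, ∫ r in a..(b + δ), dens g c (K η) r =
        η * (2 * C.G (x b) w w) + η ^ 2 * B := by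
      intro η
      have hint : ∀ u v, a ≤ u → u ≤ v → v ≤ b + δ →
          IntervalIntegrable (dens g c (K η)) volume u v := fun u v hu huv hv => by
        rw [intervalIntegrable_iff_integrableOn_Icc_of_le huv]
        exact integrableOn_dens hc ((hK η).mono hu hv)
      rw [← intervalIntegral.integral_add_adjacent_intervals (hint a b le_rfl hlt.le (by linarith))
          (hint b (b + δ) hlt.le (by linarith) le_rfl),
        ← intervalIntegral.integral_add_adjacent_intervals
          (hint a (b - δ) le_rfl (by linarith) (by linarith))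
          (hint (b - δ) b (by linarith) (by linarith) (by linarith)),
        integral_congr_open (g := dens g c J) (by linarith) (hleft η),
        integral_congr_open (g := fun r => dens g c J r + η * cross r +
          η ^ 2 * indexDensity C.G x Z r) (by linarith) (hquad η),
        integral_congr_open (g := fun r => η ^ 2 * indexDensity C.G x Z r)
          (by linarith) (hright η)]
      have hcI : IntervalIntegrable cross volume (b - δ) b := hcc.intervalIntegrable_of_Icc (by linarith)
      have hcZ : IntervalIntegrable (indexDensity C.G x Z) volume (b - δ) b :=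
        hIZ _ _ le_rfl (by linarith) (by linarith)
      rw [intervalIntegral.integral_add ((hJd _ _ (by linarith)).add (hcI.const_mul η))
          (hcZ.const_mul _),
        intervalIntegral.integral_add (hJd _ _ (by linarith)) (hcI.const_mul η),
        intervalIntegral.integral_const_mul η cross,
        intervalIntegral.integral_const_mul (η ^ 2) (indexDensity C.G x Z),
        intervalIntegral.integral_const_mul (η ^ 2) (indexDensity C.G x Z), hfl a (b - δ) (by linarith), hfl (b - δ) b (by linarith),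
        intervalIntegral.integral_eq_sub_of_hasDerivAt (fun r hr => hcross r
          (by rwa [uIcc_of_le (by linarith)] at hr)) hcI, hflux0.1, hflux0.2]
      have hZb : Z b = w := by
        show φ b • w = w
        rw [φ.one_of_mem_closedBall (Metric.mem_closedBall_self φ.rIn_pos.le), one_smul]
      have hZl : Z (b - δ) = 0 := by simp [Z, hφ0 (b - δ) (by simp [abs_of_pos hδ])]
      rw [hZb, hZl, map_zero]
      simp only [B]
      ring
    have hpos : ∀ η : ℝ, 0 ≤ η * (2 * C.G (x b) w w) + η ^ 2 * B := fun η => by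
      rw [← hI η]
      exact hidx c hc (K η) a (b + δ) (by linarith) (hK η) (hKend η).1 (hKend η).2
    by_contra hne
    have hw : 0 < C.G (x b) w w := hG.pos _ hxb w hne
    have := hpos (-(C.G (x b) w w) / (|B| + 1))
    have hB : 0 < |B| + 1 := by positivity
    have h3 : (-(C.G (x b) w w) / (|B| + 1)) ^ 2 * B ≤
        (C.G (x b) w w) ^ 2 / (|B| + 1) := by
      rw [div_pow, neg_sq, div_mul_eq_mul_div, div_le_div_iff₀ (by positivity) hB]
      nlinarith [sq_nonneg (C.G (x b) w w), le_abs_self B, abs_nonneg B,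
        mul_nonneg (sq_nonneg (C.G (x b) w w)) hB.le]
    have h4 : -(C.G (x b) w w) / (|B| + 1) * (2 * C.G (x b) w w) =
        -2 * ((C.G (x b) w w) ^ 2 / (|B| + 1)) := by ring
    have h5 : 0 < (C.G (x b) w w) ^ 2 / (|B| + 1) := by positivity
    linarith
  -- propagation
  set S : Set ℝ := {s | ∀ᶠ r in 𝓝 s, (J r : E) = 0}
  have hopen : IsOpen S := by
    rw [isOpen_iff_mem_nhds]
    exact fun s hs => eventually_eventually_nhds.2 hs
  have hprop : ∀ s r₀ : ℝ, ∀ δ > 0, (∀ r ∈ Icc (s - δ) (s + δ),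
      (Coord.chart g (c s)).Reads c J (fun q => extChartAt 𝓘(ℝ, E) (c s) (c q))
        (fieldInChart (c s) c J) r) → r₀ ∈ Ioo (s - δ) (s + δ) →
      fieldInChart (c s) c J r₀ = 0 →
      covDeriv (P216.metricInChart g (c s)) (fun q => extChartAt 𝓘(ℝ, E) (c s) (c q))
        (fieldInChart (c s) c J) r₀ = 0 → s ∈ S := by
    intro s r₀ δ hδ hR hr₀ h0 h1
    have hd : ∀ r ∈ Icc (s - δ) (s + δ),
        ContDiffAt ℝ ∞ (fun q => extChartAt 𝓘(ℝ, E) (c s) (c q)) r := fun r hr =>
      (Coord.geodesic _ hc (hR r hr).mem (hR r hr).cont (hR r hr).curve).1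
    have hz := jacobi_eq_zero (Coord.chart g (c s)).isMetric hr₀
      (fun r hr => ⟨hd r hr, (hR r hr).mem⟩)
      (fun r hr => ((Coord.chart g (c s)).jacobi hc hJ (hR r hr)).1)
      (fun r hr => ((Coord.chart g (c s)).jacobi hc hJ (hR r hr)).2) h0 h1
    show ∀ᶠ r in 𝓝 s, (J r : E) = 0
    filter_upwards [Ioo_mem_nhds (show s - δ < s by linarith) (show s < s + δ by linarith)] with r hr
    rw [← (hR r (Ioo_subset_Icc_self hr)).field.self_of_nhds, hz r hr]
    exact map_zero _
  have hclosed : IsClosed S := by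
    refine isClosed_of_closure_subset fun s hs => ?_
    obtain ⟨δ, hδ, h⟩ := exists_chart_window hc J s
    obtain ⟨r₀, hr₀S, hr₀⟩ := Metric.mem_closure_iff.1 hs δ hδ
    rw [Real.dist_eq, abs_lt] at hr₀
    refine hprop s r₀ δ hδ (fun r hr => (h r hr).1) ⟨by linarith [hr₀.2], by linarith [hr₀.1]⟩ ?_ ?_
    · show mfderiv 𝓘(ℝ, E) 𝓘(ℝ, E) (extChartAt 𝓘(ℝ, E) (c s)) (c r₀) (J r₀) = 0
      erw [hr₀S.self_of_nhds]
      exact map_zero _
    · have he : fieldInChart (c s) c J =ᶠ[𝓝 r₀] fun _ => 0 := hr₀S.mono fun r hr => by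
        show mfderiv 𝓘(ℝ, E) 𝓘(ℝ, E) (extChartAt 𝓘(ℝ, E) (c s)) (c r) (J r) = 0
        erw [hr]
        exact map_zero _
      have hr₀I : r₀ ∈ Icc (s - δ) (s + δ) := ⟨by linarith [hr₀.2], by linarith [hr₀.1]⟩
      obtain ⟨T, hT⟩ := christoffel_linear (Coord.chart g (c s)).isMetric (h r₀ hr₀I).1.mem
        (deriv (fun q => extChartAt 𝓘(ℝ, E) (c s) (c q)) r₀)
      rw [covDeriv_congr EventuallyEq.rfl he, covDeriv, deriv_const, zero_add]
      exact (hT 0).symm.trans (map_zero T)
  have hbS : b ∈ S := by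
    obtain ⟨δ, hδ, h⟩ := exists_chart_window hc J b
    refine hprop b b δ hδ (fun r hr => (h r hr).1) ⟨by linarith, by linarith⟩ ?_ key
    show mfderiv 𝓘(ℝ, E) 𝓘(ℝ, E) (extChartAt 𝓘(ℝ, E) (c b)) (c b) (J b) = 0
    rw [hb]
    exact map_zero _
  intro t
  exact (Set.eq_univ_iff_forall.1 (IsClopen.eq_univ ⟨hclosed, hopen⟩ ⟨b, hbS⟩) t).self_of_nhds

end

end Vale.Agent.P255
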