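import Vale.Agent.P255.Index
import Vale.Agent.P216.Chord.Par

/-!
Coordinates on a Riemannian manifold, curves and vector fields read in them, and the invariance
of the index integrand.
-/

open Bundle Manifold Set Filter
open scoped ContDiff Topology

namespace Vale.Agent.P255

set_option maxSynthPendingDepth 3

noncomputable section

open P216.Chord

variable {E : Type*} [NormedAddCommGroup E] [NormedSpace ℝ E] [FiniteDimensional ℝ E]
  {M : Type*} [TopologicalSpace M] [ChartedSpace E M] [IsManifold 𝓘(ℝ, E) ∞ M]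

/-- Coordinates: a local diffeomorphism from an open set of the model space, with the pulled back
metric. -/
structure Coord
    (g : ContMDiffRiemannianMetric 𝓘(ℝ, E) ∞ E (fun x : M => TangentSpace 𝓘(ℝ, E) x)) where
  /-- The domain. -/
  U : Set E
  /-- The pulled back metric. -/
  G : E → E →L[ℝ] E →L[ℝ] ℝ
  /-- The parametrisation. -/
  ψ : E → M
  isMetric : IsMetricOn U G
  smooth : ContMDiffOn 𝓘(ℝ, E) 𝓘(ℝ, E) ∞ ψ U
  inj : ∀ y ∈ U, ∀ v : E, v ≠ 0 → mfderiv 𝓘(ℝ, E) 𝓘(ℝ, E) ψ y v ≠ 0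
  pull : ∀ y ∈ U, ∀ u w : E,
    g.inner (ψ y) (mfderiv 𝓘(ℝ, E) 𝓘(ℝ, E) ψ y u) (mfderiv 𝓘(ℝ, E) 𝓘(ℝ, E) ψ y w) = G y u w

variable {g : ContMDiffRiemannianMetric 𝓘(ℝ, E) ∞ E (fun x : M => TangentSpace 𝓘(ℝ, E) x)}

variable (g) in
/-- The chart centred at `p`, as coordinates. -/
def Coord.chart (p : M) : Coord g where
  U := (extChartAt 𝓘(ℝ, E) p).target
  G := P216.metricInChart g p
  ψ := (extChartAt 𝓘(ℝ, E) p).symm
  isMetric := Par.chart_pull (E := E) g p ▸ (Par.chart (E := E) p).isMetricOn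
  smooth := contMDiffOn_extChartAt_symm p
  inj := fun _ hy _ hv => (Par.chart (E := E) p).mfderiv_ne_zero hy hv
  pull := fun y _ u w => by
    rw [← Par.chart_pull]
    exact ((Par.chart (E := E) p).pull_apply y u w).symm

variable (C : Coord g)

/-- The parametrisation is invertible near each point of its domain. -/
theorem Coord.exists_par {y : E} (hy : y ∈ C.U) :
    ∃ P : Par E M, y ∈ P.U ∧ P.U ⊆ C.U ∧ P.ψ = C.ψ := by
  have : CompleteSpace E := FiniteDimensional.complete ℝ E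
  set D := Par.chart (E := E) (C.ψ y)
  have hD : C.ψ y ∈ D.W := mem_extChartAt_source (C.ψ y)
  set U₁ : Set E := C.U ∩ C.ψ ⁻¹' D.W
  have hU₁ : IsOpen U₁ :=
    C.smooth.continuousOn.isOpen_inter_preimage C.isMetric.isOpen D.openW
  have hy₁ : y ∈ U₁ := ⟨hy, hD⟩
  set θ : E → E := fun z => D.φ (C.ψ z)
  have hθ : ContDiffOn ℝ ∞ θ U₁ := contMDiffOn_iff_contDiffOn.1
    (D.smoothφ.comp (C.smooth.mono inter_subset_left) fun z hz => hz.2)
  have hinj : ∀ z ∈ U₁, Function.Injective (fderiv ℝ θ z) := by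
    intro z hz
    rw [injective_iff_map_eq_zero]
    intro v hv
    by_contra hne
    refine C.inj z hz.1 v hne ?_
    have h1 := (C.smooth.contMDiffAt (C.isMetric.isOpen.mem_nhds hz.1)).mdifferentiableAt
      (by simp : (∞ : WithTop ℕ∞) ≠ 0)
    have hθd : MDifferentiableAt 𝓘(ℝ, E) 𝓘(ℝ, E) θ z :=
      mdifferentiableAt_iff_differentiableAt.2
        ((hθ.differentiableOn (by simp)).differentiableAt (hU₁.mem_nhds hz))
    have h2 := (D.smoothψ.contMDiffAt (D.openU.mem_nhds (D.mapsφ hz.2))).mdifferentiableAt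
      (by simp : (∞ : WithTop ℕ∞) ≠ 0)
    have he : D.ψ ∘ θ =ᶠ[𝓝 z] C.ψ :=
      eventually_of_mem (hU₁.mem_nhds hz) fun r hr => D.right _ hr.2
    have hc := congrArg (fun T : E →L[ℝ] E => T v)
      ((mfderiv_comp z h2 hθd).symm.trans (he.mfderiv_eq (I := 𝓘(ℝ, E)) (I' := 𝓘(ℝ, E))))
    refine hc.symm.trans ?_
    show mfderiv 𝓘(ℝ, E) 𝓘(ℝ, E) D.ψ (θ z) (mfderiv 𝓘(ℝ, E) 𝓘(ℝ, E) θ z v) = 0
    rw [mfderiv_eq_fderiv]
    erw [hv]
    exact map_zero _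
  have hequiv : ∀ z ∈ U₁, ∃ e : E ≃L[ℝ] E, (e : E →L[ℝ] E) = fderiv ℝ θ z := fun z hz =>
    ⟨(LinearEquiv.ofInjectiveEndo (fderiv ℝ θ z : E →ₗ[ℝ] E) (hinj z hz)).toContinuousLinearEquiv,
      rfl⟩
  obtain ⟨e, he⟩ := hequiv y hy₁
  have hd : HasFDerivAt θ (e : E →L[ℝ] E) y :=
    he ▸ ((hθ.differentiableOn (by simp)).differentiableAt (hU₁.mem_nhds hy₁)).hasFDerivAt
  have hat : ContDiffAt ℝ ∞ θ y := hθ.contDiffAt (hU₁.mem_nhds hy₁)
  set H := hat.toOpenPartialHomeomorph θ hd (by simp)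
  have hH : (H : E → E) = θ := hat.toOpenPartialHomeomorph_coe hd (by simp)
  set V : Set E := H.source ∩ U₁
  have hV : IsOpen V := H.open_source.inter hU₁
  have hHs : ∀ z ∈ V, ContDiffAt ℝ ∞ H.symm (θ z) := by
    intro z hz
    obtain ⟨e', he'⟩ := hequiv z hz.2
    refine H.contDiffAt_symm (f₀' := e') ?_ ?_ ?_
    · rw [← hH]; exact H.map_source hz.1
    · rw [← hH, H.left_inv hz.1, hH, he']
      exact ((hθ.differentiableOn (by simp)).differentiableAt (hU₁.mem_nhds hz.2)).hasFDerivAt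
    · rw [← hH, H.left_inv hz.1, hH]
      exact hθ.contDiffAt (hU₁.mem_nhds hz.2)
  have himg : IsOpen (H '' V) := H.isOpen_image_of_subset_source hV inter_subset_left
  refine ⟨{
    U := V
    W := D.W ∩ D.φ ⁻¹' (H '' V)
    ψ := C.ψ
    φ := fun m => H.symm (D.φ m)
    openU := hV
    openW := D.smoothφ.continuousOn.isOpen_inter_preimage D.openW himg
    mapsψ := fun z hz => ⟨hz.2.2, z, hz, congrFun hH z⟩
    mapsφ := fun m hm => by
      obtain ⟨z, hz, hze⟩ := hm.2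
      show H.symm (D.φ m) ∈ V
      rw [← hze, H.left_inv hz.1]; exact hz
    left := fun z hz => (congrArg H.symm (congrFun hH z).symm).trans (H.left_inv hz.1)
    right := fun m hm => by
      obtain ⟨z, hz, hze⟩ := hm.2
      show C.ψ (H.symm (D.φ m)) = m
      rw [← hze, H.left_inv hz.1]
      have h := congrArg D.ψ hze
      rw [D.right m hm.1, hH] at h
      exact (D.right _ hz.2.2).symm.trans h
    smoothψ := C.smooth.mono fun z hz => hz.2.1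
    smoothφ := ContMDiffOn.comp (g := H.symm) (contMDiffOn_iff_contDiffOn.2 fun w hw => by
      obtain ⟨z, hz, rfl⟩ := hw
      have := hHs z hz
      rw [← hH] at this
      exact this.contDiffWithinAt) (D.smoothφ.mono inter_subset_left) fun m hm => hm.2 },
    ⟨hat.mem_toOpenPartialHomeomorph_source hd (by simp), hy₁⟩, fun z hz => hz.2.1, rfl⟩

/-- A change of coordinates near a common point. -/
theorem Coord.exists_change (C' : Coord g) {y y' : E} (hy : y ∈ C.U) (hy' : y' ∈ C'.U)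
    (he : C.ψ y = C'.ψ y') :
    ∃ (V : Set E) (Φ : E → E), IsOpen V ∧ y ∈ V ∧ V ⊆ C.U ∧ MapsTo Φ V C'.U ∧ Φ y = y' ∧
      ContDiffOn ℝ ∞ Φ V ∧ (∀ z ∈ V, C'.ψ (Φ z) = C.ψ z) ∧
      (∀ z ∈ V, ∀ v : E, mfderiv 𝓘(ℝ, E) 𝓘(ℝ, E) C'.ψ (Φ z) (fderiv ℝ Φ z v) =
        mfderiv 𝓘(ℝ, E) 𝓘(ℝ, E) C.ψ z v) ∧
      ∀ z ∈ V, ∀ u w, C'.G (Φ z) (fderiv ℝ Φ z u) (fderiv ℝ Φ z w) = C.G z u w := by
  obtain ⟨P, hP, hPU, hPψ⟩ := C'.exists_par hy'
  set V : Set E := C.U ∩ C.ψ ⁻¹' P.W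
  have hV : IsOpen V := C.smooth.continuousOn.isOpen_inter_preimage C.isMetric.isOpen P.openW
  have hW : C.ψ y ∈ P.W := by rw [he, ← hPψ]; exact P.mapsψ hP
  set Φ : E → E := fun z => P.φ (C.ψ z)
  have hΦ : ContDiffOn ℝ ∞ Φ V := contMDiffOn_iff_contDiffOn.1
    (P.smoothφ.comp (C.smooth.mono inter_subset_left) fun z hz => hz.2)
  have hr : ∀ z ∈ V, C'.ψ (Φ z) = C.ψ z := fun z hz => by
    rw [← hPψ]; exact P.right _ hz.2
  have hd : ∀ z ∈ V, ∀ v : E, mfderiv 𝓘(ℝ, E) 𝓘(ℝ, E) C'.ψ (Φ z) (fderiv ℝ Φ z v) =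
      mfderiv 𝓘(ℝ, E) 𝓘(ℝ, E) C.ψ z v := by
    intro z hz v
    have h2 := (C'.smooth.contMDiffAt (C'.isMetric.isOpen.mem_nhds
      (hPU (P.mapsφ hz.2)))).mdifferentiableAt (by simp : (∞ : WithTop ℕ∞) ≠ 0)
    have hΦd : MDifferentiableAt 𝓘(ℝ, E) 𝓘(ℝ, E) Φ z :=
      mdifferentiableAt_iff_differentiableAt.2
        ((hΦ.differentiableOn (by simp)).differentiableAt (hV.mem_nhds hz))
    have hev : C'.ψ ∘ Φ =ᶠ[𝓝 z] C.ψ := eventually_of_mem (hV.mem_nhds hz) hr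
    rw [← mfderiv_eq_fderiv]
    exact congrArg (fun T : E →L[ℝ] E => T v)
      ((mfderiv_comp z h2 hΦd).symm.trans (hev.mfderiv_eq (I := 𝓘(ℝ, E)) (I' := 𝓘(ℝ, E))))
  refine ⟨V, Φ, hV, ⟨hy, hW⟩, inter_subset_left, fun z hz => hPU (P.mapsφ hz.2), ?_, hΦ, hr, hd,
    fun z hz u w => ?_⟩
  · show P.φ (C.ψ y) = y'
    rw [he, ← hPψ, P.left y' hP]
  · rw [← C'.pull _ (hPU (P.mapsφ hz.2)), hd z hz, hd z hz, hr z hz, C.pull z hz.1]

/-- `x` and `ξ` read the curve `c` and the field `K` in the coordinates `C` near the time `s`. -/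
structure Coord.Reads (c : ℝ → M) (K : ∀ t, TangentSpace 𝓘(ℝ, E) (c t)) (x ξ : ℝ → E) (s : ℝ) :
    Prop where
  mem : x s ∈ C.U
  cont : ContinuousAt x s
  curve : ∀ᶠ r in 𝓝 s, C.ψ (x r) = c r
  field : ∀ᶠ r in 𝓝 s, mfderiv 𝓘(ℝ, E) 𝓘(ℝ, E) C.ψ (x r) (ξ r) = (K r : E)

variable (g) in
/-- The index integrand of a field along a curve. -/
def dens (c : ℝ → M) (K : ∀ t, TangentSpace 𝓘(ℝ, E) (c t)) (s : ℝ) : ℝ :=
  indexDensity (P216.metricInChart g (c s)) (fun r => extChartAt 𝓘(ℝ, E) (c s) (c r))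
    (fieldInChart (c s) c K) s

variable (g) in
/-- The pairing of a field along a curve with its covariant derivative. -/
def flux (c : ℝ → M) (K : ∀ t, TangentSpace 𝓘(ℝ, E) (c t)) (s : ℝ) : ℝ :=
  P216.metricInChart g (c s) (extChartAt 𝓘(ℝ, E) (c s) (c s)) (fieldInChart (c s) c K s)
    (covDeriv (P216.metricInChart g (c s)) (fun r => extChartAt 𝓘(ℝ, E) (c s) (c r))
      (fieldInChart (c s) c K) s)

theorem Coord.chart_reads {c : ℝ → M} (K : ∀ t, TangentSpace 𝓘(ℝ, E) (c t)) {p : M} {s : ℝ}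
    (hc : ContinuousAt c s) (hp : c s ∈ (extChartAt 𝓘(ℝ, E) p).source) :
    (Coord.chart g p).Reads c K (fun r => extChartAt 𝓘(ℝ, E) p (c r)) (fieldInChart p c K) s := by
  set D := Par.chart (E := E) p
  have hev : ∀ᶠ r in 𝓝 s, c r ∈ D.W := hc.eventually_mem (D.openW.mem_nhds hp)
  refine ⟨D.mapsφ hp, (D.smoothφ.continuousOn.continuousAt (D.openW.mem_nhds hp)).comp hc,
    hev.mono fun r hr => D.right _ hr, hev.mono fun r hr => ?_⟩
  have h1 := (D.smoothψ.contMDiffAt (D.openU.mem_nhds (D.mapsφ hr))).mdifferentiableAt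
    (by simp : (∞ : WithTop ℕ∞) ≠ 0)
  have h2 := (D.smoothφ.contMDiffAt (D.openW.mem_nhds hr)).mdifferentiableAt
    (by simp : (∞ : WithTop ℕ∞) ≠ 0)
  have he : D.ψ ∘ D.φ =ᶠ[𝓝 (c r)] id := eventually_of_mem (D.openW.mem_nhds hr) D.right
  exact congrArg (fun T : E →L[ℝ] E => T (K r))
    ((mfderiv_comp (c r) h1 h2).symm.trans (he.mfderiv_eq.trans mfderiv_id))

/-- Two readings of the same field differ by a change of coordinates. -/
theorem Coord.Reads.compare {C C' : Coord g} {c : ℝ → M} {K : ∀ t, TangentSpace 𝓘(ℝ, E) (c t)}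
    {x ξ x' ξ' : ℝ → E} {s : ℝ} (h : C.Reads c K x ξ s) (h' : C'.Reads c K x' ξ' s) :
    ∃ (V : Set E) (Φ : E → E), IsOpen V ∧ x s ∈ V ∧ V ⊆ C.U ∧ MapsTo Φ V C'.U ∧
      ContDiffOn ℝ ∞ Φ V ∧
      (∀ z ∈ V, ∀ u w, C'.G (Φ z) (fderiv ℝ Φ z u) (fderiv ℝ Φ z w) = C.G z u w) ∧
      (x' =ᶠ[𝓝 s] fun r => Φ (x r)) ∧ ξ' =ᶠ[𝓝 s] fun r => fderiv ℝ Φ (x r) (ξ r) := by
  have he : C.ψ (x s) = C'.ψ (x' s) := h.curve.self_of_nhds.trans h'.curve.self_of_nhds.symm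
  obtain ⟨V, Φ, hV, hyV, hVU, hmaps, hΦy, hΦ, hr, hd, hp⟩ := C.exists_change C' h.mem h'.mem he
  obtain ⟨P, hP, hPU, hPψ⟩ := C'.exists_par h'.mem
  have hΦc : ContinuousAt (fun r => Φ (x r)) s :=
    (hΦ.continuousOn.continuousAt (hV.mem_nhds hyV)).comp h.cont
  have e1 : ∀ᶠ r in 𝓝 s, x r ∈ V := h.cont.eventually_mem (hV.mem_nhds hyV)
  have e2 : ∀ᶠ r in 𝓝 s, Φ (x r) ∈ P.U :=
    hΦc.eventually_mem (P.openU.mem_nhds (by rw [hΦy]; exact hP))
  have e3 : ∀ᶠ r in 𝓝 s, x' r ∈ P.U := h'.cont.eventually_mem (P.openU.mem_nhds hP)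
  have hx : x' =ᶠ[𝓝 s] fun r => Φ (x r) := by
    filter_upwards [e1, e2, e3, h.curve, h'.curve] with r h1 h2 h3 h4 h5
    rw [← P.left _ h2, ← P.left _ h3, hPψ, hr _ h1, h4, h5]
  refine ⟨V, Φ, hV, hyV, hVU, hmaps, hΦ, hp, hx, ?_⟩
  filter_upwards [e1, h.field, h'.field, hx] with r h1 h4 h5 h6
  by_contra hne
  refine C'.inj (Φ (x r)) (hmaps h1) (ξ' r - fderiv ℝ Φ (x r) (ξ r)) (sub_ne_zero.2 hne) ?_
  set T : E →L[ℝ] E := mfderiv 𝓘(ℝ, E) 𝓘(ℝ, E) C'.ψ (Φ (x r)) with hT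
  show T (ξ' r - fderiv ℝ Φ (x r) (ξ r)) = 0
  have h7 : T (fderiv ℝ Φ (x r) (ξ r)) = (K r : E) := (hd _ h1 (ξ r)).trans h4
  have h8 : T (ξ' r) = (K r : E) := by rw [hT, ← h6]; exact h5
  rw [map_sub, h7, h8]
  exact sub_self (G := E) _

end

end Vale.Agent.P255
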