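import Mathlib

/-!
An integral is nonnegative if it is so on each component of the set where the integrand may be
negative.
-/

open Set MeasureTheory

namespace Vale.Agent.P255

/-- A bounded nonempty open interval is the interval between its infimum and supremum. -/
theorem eq_Ioo_of_isOpen_isPreconnected {C : Set ℝ} (ho : IsOpen C) (hc : IsPreconnected C)
    (hne : C.Nonempty) (hb : BddBelow C) (ha : BddAbove C) :
    sInf C < sSup C ∧ C = Ioo (sInf C) (sSup C) := by
  have hsub : Ioo (sInf C) (sSup C) ⊆ C := IsConnected.Ioo_csInf_csSup_subset ⟨hne, hc⟩ hb ha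
  have h1 : sInf C ∉ C := fun h => by
    obtain ⟨ε, hε, hball⟩ := Metric.isOpen_iff.1 ho _ h
    have := csInf_le hb (hball (show sInf C - ε / 2 ∈ Metric.ball (sInf C) ε by
      rw [Metric.mem_ball, Real.dist_eq, abs_of_nonpos (by linarith)]; linarith))
    linarith
  have h2 : sSup C ∉ C := fun h => by
    obtain ⟨ε, hε, hball⟩ := Metric.isOpen_iff.1 ho _ h
    have := le_csSup ha (hball (show sSup C + ε / 2 ∈ Metric.ball (sSup C) ε by
      rw [Metric.mem_ball, Real.dist_eq, abs_of_nonneg (by linarith)]; linarith))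
    linarith
  have hsup : C ⊆ Ioo (sInf C) (sSup C) := fun x hx =>
    ⟨lt_of_le_of_ne (csInf_le hb hx) fun e => h1 (e ▸ hx),
      lt_of_le_of_ne (le_csSup ha hx) fun e => h2 (e ▸ hx)⟩
  obtain ⟨x, hx⟩ := hne
  exact ⟨(hsup hx).1.trans (hsup hx).2, hsup.antisymm hsub⟩

theorem integral_nonneg_of_components {f : ℝ → ℝ} {O : Set ℝ} {a b : ℝ} (hab : a ≤ b)
    (hO : IsOpen O) (hf : IntegrableOn f (Icc a b)) (hout : ∀ s ∈ Ioo a b, s ∉ O → 0 ≤ f s)
    (hin : ∀ u v, a ≤ u → u < v → v ≤ b → Ioo u v ⊆ O → (u = a ∨ u ∉ O) → (v = b ∨ v ∉ O) →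
      0 ≤ ∫ s in u..v, f s) :
    0 ≤ ∫ s in a..b, f s := by
  rw [intervalIntegral.integral_of_le hab, integral_Ioc_eq_integral_Ioo]
  set O' : Set ℝ := Ioo a b ∩ O
  have hO' : IsOpen O' := isOpen_Ioo.inter hO
  have hfI : IntegrableOn f (Ioo a b) := hf.mono_set Ioo_subset_Icc_self
  rw [← integral_inter_add_diff hO.measurableSet hfI]
  refine add_nonneg ?_ (setIntegral_nonneg (measurableSet_Ioo.diff hO.measurableSet)
    fun s hs => hout s hs.1 hs.2)
  set S : Set (Set ℝ) := connectedComponentIn O' '' O'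
  have hopen : ∀ C ∈ S, IsOpen C := by
    rintro _ ⟨x, -, rfl⟩
    exact hO'.connectedComponentIn
  have hdisj : S.PairwiseDisjoint id := by
    rintro _ ⟨x, -, rfl⟩ _ ⟨y, -, rfl⟩ hne
    refine Set.disjoint_left.2 fun z hz hz' => hne ?_
    exact (connectedComponentIn_eq hz).trans (connectedComponentIn_eq hz').symm
  have hcount : S.Countable := hdisj.countable_of_isOpen hopen fun C hC => by
    obtain ⟨x, hx, rfl⟩ := hC
    exact ⟨x, mem_connectedComponentIn hx⟩
  have : Countable S := hcount.to_subtype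
  have hunion : O' = ⋃ C : S, (C : Set ℝ) := by
    refine Subset.antisymm (fun x hx => mem_iUnion.2 ⟨⟨_, x, hx, rfl⟩, mem_connectedComponentIn hx⟩)
      (iUnion_subset ?_)
    rintro ⟨_, x, -, rfl⟩
    exact connectedComponentIn_subset O' x
  rw [show Ioo a b ∩ O = ⋃ C : S, (C : Set ℝ) from hunion,
    integral_iUnion (fun C : S => (hopen C C.2).measurableSet)
      (fun (C C' : S) h => hdisj C.2 C'.2 (Subtype.coe_injective.ne h))
      (hfI.mono_set (by rw [← hunion]; exact inter_subset_left))]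
  refine tsum_nonneg fun ⟨C, x, hx, hCx⟩ => ?_
  subst hCx
  set C := connectedComponentIn O' x
  have hsub : C ⊆ O' := connectedComponentIn_subset O' x
  have hCb : BddBelow C := (bddBelow_Ioo).mono (hsub.trans inter_subset_left)
  have hCa : BddAbove C := (bddAbove_Ioo).mono (hsub.trans inter_subset_left)
  obtain ⟨huv, hC⟩ := eq_Ioo_of_isOpen_isPreconnected (hopen C ⟨x, hx, rfl⟩)
    isPreconnected_connectedComponentIn ⟨x, mem_connectedComponentIn hx⟩ hCb hCa
  set u := sInf C
  set v := sSup C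
  have hclo : ∀ w, w ∈ closure C → w ∈ O' → w ∈ C := fun w hw hwO => by
    obtain ⟨z, hz, hz'⟩ := mem_closure_iff.1 hw _ hO'.connectedComponentIn
      (mem_connectedComponentIn hwO)
    have : C = connectedComponentIn O' w :=
      (connectedComponentIn_eq hz').trans (connectedComponentIn_eq hz).symm
    rw [this]
    exact mem_connectedComponentIn hwO
  have hab' : Icc u v ⊆ Icc a b := by
    rw [← closure_Ioo huv.ne, ← hC]
    exact (closure_mono (hsub.trans inter_subset_left)).trans
      (closure_minimal Ioo_subset_Icc_self isClosed_Icc)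
  have hu := hab' (left_mem_Icc.2 huv.le)
  have hv := hab' (right_mem_Icc.2 huv.le)
  have key : ∀ w, w ∈ Icc u v → w ∉ C → w = a ∨ w = b ∨ w ∉ O := fun w hw hwC => by
    by_contra! hne
    refine hwC (hclo w ?_ ⟨⟨lt_of_le_of_ne (hab' hw).1 (Ne.symm hne.1),
      lt_of_le_of_ne (hab' hw).2 hne.2.1⟩, hne.2.2⟩)
    rwa [hC, closure_Ioo huv.ne]
  have h := hin u v hu.1 huv hv.2 (hC ▸ hsub.trans inter_subset_right)
    (by
      rcases key u (left_mem_Icc.2 huv.le) (by rw [hC]; simp) with h | h | h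
      exacts [.inl h, absurd (h ▸ huv) (not_lt.2 hv.2), .inr h])
    (by
      rcases key v (right_mem_Icc.2 huv.le) (by rw [hC]; simp) with h | h | h
      exacts [absurd (h ▸ huv) (not_lt.2 hu.1), .inl h, .inr h])
  rwa [intervalIntegral.integral_of_le huv.le, integral_Ioc_eq_integral_Ioo, ← hC] at h

end Vale.Agent.P255
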