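import Vale.Agent.P255.Index
import Vale.Agent.P216.Chord.Main

/-!
Coordinate facts used in the assembly.
-/

open Set Filter
open scoped ContDiff Topology

namespace Vale.Agent.P255

noncomputable section

open P216.Chord

variable {E : Type*} [NormedAddCommGroup E] [NormedSpace ℝ E] [FiniteDimensional ℝ E]
  {U : Set E} {G : E → E →L[ℝ] E →L[ℝ] ℝ}

theorem covDeriv_deriv_eq_zero_of_EL (hG : IsMetricOn U G) {x : ℝ → E} {s : ℝ} (hs : x s ∈ U)
    (hx : ContDiffAt ℝ ∞ x s) (h : EL G x s) : covDeriv G x (deriv x) s = 0 :=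
  (covDeriv_deriv_eq_zero_iff hG hs hx).2 h

theorem contDiffAt_deriv {x : ℝ → E} {s : ℝ} (hx : ContDiffAt ℝ ∞ x s) :
    ContDiffAt ℝ ∞ (deriv x) s :=
  ((hx.fderiv_right (m := ∞) (by simp)).clm_apply contDiffAt_const).congr_of_eventuallyEq
    (Eventually.of_forall fun _ => fderiv_apply_one_eq_deriv.symm)

theorem contDiffAt_covDeriv (hG : IsMetricOn U G) {x ξ : ℝ → E} {s : ℝ} (hs : x s ∈ U)
    (hx : ContDiffAt ℝ ∞ x s) (hξ : ContDiffAt ℝ ∞ ξ s) :
    ContDiffAt ℝ ∞ (covDeriv G x ξ) s := by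
  refine ((contDiffAt_deriv hξ).add (((((contDiffOn_christoffelCLM hG).contDiffAt
    (hG.isOpen.mem_nhds hs)).comp s hx).clm_apply (contDiffAt_deriv hx)).clm_apply
      hξ)).congr_of_eventuallyEq (Eventually.of_forall fun r => ?_)
  simp [covDeriv, christoffelCLM_apply]

theorem continuousAt_curvature (hG : IsMetricOn U G) {X : Type*} [TopologicalSpace X]
    {y u v w : X → E} {p : X} (hp : y p ∈ U) (hy : ContinuousAt y p) (hu : ContinuousAt u p)
    (hv : ContinuousAt v p) (hw : ContinuousAt w p) :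
    ContinuousAt (fun q => curvature G (y q) (u q) (v q) (w q)) p :=
  ContinuousAt.comp (g := fun q : E × E × E × E => curvature G q.1 q.2.1 q.2.2.1 q.2.2.2)
    (f := fun q => (y q, u q, v q, w q))
    ((continuousOn_curvature hG).continuousAt ((hG.isOpen.prod isOpen_univ).mem_nhds ⟨hp, trivial⟩))
    (hy.prodMk (hu.prodMk (hv.prodMk hw)))

theorem continuousAt_christoffel (hG : IsMetricOn U G) {X : Type*} [TopologicalSpace X]
    {y u w : X → E} {p : X} (hp : y p ∈ U) (hy : ContinuousAt y p) (hu : ContinuousAt u p)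
    (hw : ContinuousAt w p) : ContinuousAt (fun q => christoffel G (y q) (u q) (w q)) p := by
  refine (((ContinuousAt.comp (g := christoffelCLM G) (f := y)
    ((contDiffOn_christoffelCLM hG).continuousOn.continuousAt (hG.isOpen.mem_nhds hp))
    hy).clm_apply hu).clm_apply hw).congr (Eventually.of_forall fun q => ?_)
  exact christoffelCLM_apply G (y q) (u q) (w q)

theorem christoffel_linear (_hG : IsMetricOn U G) {y : E} (_hy : y ∈ U) (u : E) :
    ∃ T : E →L[ℝ] E, ∀ w, T w = christoffel G y u w :=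
  ⟨christoffelCLM G y u, fun w => christoffelCLM_apply G y u w⟩

theorem curvature_linear (hG : IsMetricOn U G) {y : E} (hy : y ∈ U) (v : E) :
    ∃ R : E →L[ℝ] E, ∀ u, R u = curvature G y u v v := by
  set D : E →L[ℝ] E →L[ℝ] E →L[ℝ] E := fderiv ℝ (christoffelCLM G) y
  set C : E →L[ℝ] E →L[ℝ] E := christoffelCLM G y
  refine ⟨((D.flip v).flip v) - (D v).flip v + C.flip (C v v) - (C v).comp (C.flip v), fun u => ?_⟩
  simp only [curvature, fderiv_christoffel hG hy]
  simp only [← christoffelCLM_apply]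
  rfl

theorem hasDerivAt_pairing (hG : IsMetricOn U G) {x ξ η : ℝ → E} {s : ℝ} (hs : x s ∈ U)
    (hx : DifferentiableAt ℝ x s) (hξ : DifferentiableAt ℝ ξ s) (hη : DifferentiableAt ℝ η s) :
    HasDerivAt (fun r => G (x r) (ξ r) (η r))
      (G (x s) (covDeriv G x ξ s) (η s) + G (x s) (ξ s) (covDeriv G x η s)) s :=
  hasDerivAt_metric hG hs hx hξ hη

end

end Vale.Agent.P255
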