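import Vale.Agent.P255.Assembly.Coord
import Vale.Agent.P216.Chord.Main
import Vale.Agent.P255.Assembly.Needs

/-!
Geodesics, Jacobi fields and the index integrand read in arbitrary coordinates.
-/

open Bundle Manifold Set Filter
open scoped ContDiff Topology

namespace Vale.Agent.P255

set_option maxSynthPendingDepth 3

noncomputable section

open P216.Chord

variable {E : Type*} [NormedAddCommGroup E] [NormedSpace ℝ E] [FiniteDimensional ℝ E]
  {M : Type*} [TopologicalSpace M] [ChartedSpace E M] [IsManifold 𝓘(ℝ, E) ∞ M]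
  {g : ContMDiffRiemannianMetric 𝓘(ℝ, E) ∞ E (fun x : M => TangentSpace 𝓘(ℝ, E) x)}

omit [FiniteDimensional ℝ E] in
theorem covDeriv_congr {G : E → E →L[ℝ] E →L[ℝ] ℝ} {x y ξ η : ℝ → E} {s : ℝ}
    (hx : y =ᶠ[𝓝 s] x) (hξ : η =ᶠ[𝓝 s] ξ) : covDeriv G y η s = covDeriv G x ξ s := by
  unfold covDeriv
  rw [hξ.deriv_eq, hx.deriv_eq, hx.eq_of_nhds, hξ.eq_of_nhds]

namespace Coord.Reads

variable {C C' : Coord g} {c : ℝ → M} {K : ∀ t, TangentSpace 𝓘(ℝ, E) (c t)}
  {x ξ x' ξ' : ℝ → E} {s : ℝ}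

theorem continuousAt (h : C.Reads c K x ξ s) : ContinuousAt c s :=
  ((C.smooth.continuousOn.continuousAt (C.isMetric.isOpen.mem_nhds h.mem)).comp h.cont).congr
    h.curve

theorem chart (h : C.Reads c K x ξ s) :
    (Coord.chart g (c s)).Reads c K (fun r => extChartAt 𝓘(ℝ, E) (c s) (c r))
      (fieldInChart (c s) c K) s :=
  Coord.chart_reads K h.continuousAt (mem_extChartAt_source (c s))

/-- Readings at nearby times. -/
theorem eventually (h : C.Reads c K x ξ s) (hx : ∀ᶠ r in 𝓝 s, ContinuousAt x r) :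
    ∀ᶠ r in 𝓝 s, C.Reads c K x ξ r := by
  filter_upwards [hx, h.cont.eventually_mem (C.isMetric.isOpen.mem_nhds h.mem),
    eventually_eventually_nhds.2 h.curve, eventually_eventually_nhds.2 h.field] with r h1 h2 h3 h4
  exact ⟨h2, h1, h3, h4⟩

/-- Regularity passes from one reading to another. -/
theorem contDiffAt (h : C.Reads c K x ξ s) (h' : C'.Reads c K x' ξ' s)
    (hx : ContDiffAt ℝ ∞ x s) : ContDiffAt ℝ ∞ x' s ∧
      (ContDiffAt ℝ ∞ ξ s → ContDiffAt ℝ ∞ ξ' s) := by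
  obtain ⟨V, Φ, hV, hyV, -, -, hΦ, -, hx', hξ'⟩ := h.compare h'
  refine ⟨((hΦ.contDiffAt (hV.mem_nhds hyV)).comp s hx).congr_of_eventuallyEq hx', fun hξ => ?_⟩
  exact ((((hΦ.fderiv_of_isOpen hV (m := ∞) le_rfl).contDiffAt (hV.mem_nhds hyV)).comp s
    hx).clm_apply hξ).congr_of_eventuallyEq hξ'

/-- The integrand does not depend on the coordinates. -/
theorem density_eq (h : C.Reads c K x ξ s) (h' : C'.Reads c K x' ξ' s)
    (hx : DifferentiableAt ℝ x s) (hξ : DifferentiableAt ℝ ξ s) :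
    indexDensity C'.G x' ξ' s = indexDensity C.G x ξ s ∧
      C'.G (x' s) (ξ' s) (covDeriv C'.G x' ξ' s) = C.G (x s) (ξ s) (covDeriv C.G x ξ s) := by
  obtain ⟨V, Φ, hV, hyV, hVU, hmaps, hΦ, hp, hx', hξ'⟩ := h.compare h'
  have hG : IsMetricOn V C.G := ⟨hV, C.isMetric.smooth.mono hVU,
    fun y hy => C.isMetric.symm y (hVU hy), fun y hy => C.isMetric.pos y (hVU hy)⟩
  have hd : covDeriv C'.G x' ξ' s = fderiv ℝ Φ (x s) (covDeriv C.G x ξ s) :=
    (covDeriv_congr hx' hξ').trans (covDeriv_map hG C'.isMetric hΦ hmaps hp hyV hx hξ)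
  have hv : deriv x' s = fderiv ℝ Φ (x s) (deriv x s) := by
    rw [hx'.deriv_eq]
    exact fderiv_comp_deriv s ((hΦ.differentiableOn (by simp)).differentiableAt
      (hV.mem_nhds hyV)) hx
  unfold indexDensity
  rw [hd, hx'.eq_of_nhds, hξ'.eq_of_nhds, hv,
    curvature_map hG C'.isMetric hΦ hmaps hp hyV, hp _ hyV, hp _ hyV, hp _ hyV]
  exact ⟨rfl, rfl⟩

/-- The intrinsic integrand and pairing, in any coordinates. -/
theorem dens_eq (h : C.Reads c K x ξ s) (hx : DifferentiableAt ℝ x s)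
    (hξ : DifferentiableAt ℝ ξ s) :
    dens g c K s = indexDensity C.G x ξ s ∧
      flux g c K s = C.G (x s) (ξ s) (covDeriv C.G x ξ s) := by
  obtain ⟨h1, h2⟩ := h.density_eq h.chart hx hξ
  unfold dens flux
  exact ⟨h1, h2⟩

end Coord.Reads

/-- A geodesic in coordinates. -/
theorem Coord.geodesic (C : Coord g) {c : ℝ → M} (hc : P216.IsGeodesic g c) {x : ℝ → E} {s : ℝ}
    (hs : x s ∈ C.U) (hcont : ContinuousAt x s) (hev : ∀ᶠ r in 𝓝 s, C.ψ (x r) = c r) :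
    ContDiffAt ℝ ∞ x s ∧ covDeriv C.G x (deriv x) s = 0 := by
  set K : ∀ t, TangentSpace 𝓘(ℝ, E) (c t) := fun t => 0
  have h : C.Reads c K x (fun _ => 0) s :=
    ⟨hs, hcont, hev, Eventually.of_forall fun r => map_zero _⟩
  have h0 := h.chart
  set x₀ : ℝ → E := fun r => extChartAt 𝓘(ℝ, E) (c s) (c r)
  have hx₀ : ContDiffAt ℝ ∞ x₀ s :=
    ((contMDiffAt_extChartAt' (mem_chart_source E (c s))).comp s (hc.1 s)).contDiffAt
  have hx := (h0.contDiffAt h hx₀).1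
  refine ⟨hx, ?_⟩
  obtain ⟨V, Φ, hV, hyV, hVU, hmaps, hΦ, hp, hx', -⟩ := h0.compare h
  have hG : IsMetricOn V (Coord.chart g (c s)).G := ⟨hV, (Coord.chart g (c s)).isMetric.smooth.mono
    hVU, fun y hy => (Coord.chart g (c s)).isMetric.symm y (hVU hy),
    fun y hy => (Coord.chart g (c s)).isMetric.pos y (hVU hy)⟩
  have hzero : covDeriv (Coord.chart g (c s)).G x₀ (deriv x₀) s = 0 :=
    covDeriv_deriv_eq_zero_of_EL (Coord.chart g (c s)).isMetric h0.mem hx₀ (hc.2 s)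
  have hdiff : ∀ᶠ r in 𝓝 s, DifferentiableAt ℝ x₀ r ∧ x₀ r ∈ V :=
    (hx₀.of_le (show (1 : WithTop ℕ∞) ≤ ∞ by simp)).eventually (by simp) |>.mono (fun r hr =>
      hr.differentiableAt one_ne_zero) |>.and (h0.cont.eventually_mem (hV.mem_nhds hyV))
  have hd : deriv x =ᶠ[𝓝 s] fun r => fderiv ℝ Φ (x₀ r) (deriv x₀ r) := by
    filter_upwards [hx'.deriv, hdiff] with r h1 h2
    rw [h1]
    exact fderiv_comp_deriv r ((hΦ.differentiableOn (by simp)).differentiableAt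
      (hV.mem_nhds h2.2)) h2.1
  have hd₀ : DifferentiableAt ℝ (deriv x₀) s :=
    (((hx₀.fderiv_right (m := 1) (by exact WithTop.coe_le_coe.2 le_top)).clm_apply
      (contDiffAt_const (c := (1 : ℝ)))).differentiableAt one_ne_zero).congr_of_eventuallyEq
      (Eventually.of_forall fun r => fderiv_apply_one_eq_deriv.symm)
  rw [covDeriv_congr hx' hd]
  exact (covDeriv_map hG C.isMetric hΦ hmaps hp hyV hdiff.self_of_nhds.1 hd₀).trans
    (by rw [hzero, map_zero])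

/-- A Jacobi field in coordinates. -/
theorem Coord.jacobi (C : Coord g) {c : ℝ → M} (hc : P216.IsGeodesic g c)
    {J : ∀ t, TangentSpace 𝓘(ℝ, E) (c t)} (hJ : IsJacobiField g c J) {x ξ : ℝ → E} {s : ℝ}
    (h : C.Reads c J x ξ s) :
    ContDiffAt ℝ ∞ ξ s ∧
      covDeriv C.G x (covDeriv C.G x ξ) s + curvature C.G (x s) (ξ s) (deriv x s) (deriv x s) = 0 := by
  obtain ⟨hξ₀, hzero⟩ := hJ s
  have h0 := h.chart
  set x₀ : ℝ → E := fun r => extChartAt 𝓘(ℝ, E) (c s) (c r)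
  set ξ₀ : ℝ → E := fieldInChart (c s) c J
  set G₀ := P216.metricInChart g (c s)
  have hx₀ : ContDiffAt ℝ ∞ x₀ s :=
    ((contMDiffAt_extChartAt' (mem_chart_source E (c s))).comp s (hc.1 s)).contDiffAt
  refine ⟨(h0.contDiffAt h hx₀).2 hξ₀, ?_⟩
  obtain ⟨V, Φ, hV, hyV, hVU, hmaps, hΦ, hp, hx', hξ'⟩ := h0.compare h
  have hG : IsMetricOn V G₀ := ⟨hV, (Coord.chart g (c s)).isMetric.smooth.mono hVU,
    fun y hy => (Coord.chart g (c s)).isMetric.symm y (hVU hy),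
    fun y hy => (Coord.chart g (c s)).isMetric.pos y (hVU hy)⟩
  have hdiff : ∀ᶠ r in 𝓝 s, (DifferentiableAt ℝ x₀ r ∧ x₀ r ∈ V) ∧ DifferentiableAt ℝ ξ₀ r :=
    (((hx₀.of_le (show (1 : WithTop ℕ∞) ≤ ∞ by simp)).eventually (by simp)).mono fun r hr =>
      hr.differentiableAt one_ne_zero).and (h0.cont.eventually_mem (hV.mem_nhds hyV))
      |>.and (((hξ₀.of_le (show (1 : WithTop ℕ∞) ≤ ∞ by simp)).eventually (by simp)).mono fun r hr =>
        hr.differentiableAt one_ne_zero)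
  have hcov : covDeriv C.G x ξ =ᶠ[𝓝 s] fun r => fderiv ℝ Φ (x₀ r) (covDeriv G₀ x₀ ξ₀ r) := by
    filter_upwards [hdiff, eventually_eventually_nhds.2 hx', eventually_eventually_nhds.2 hξ']
      with r hr h1 h2
    exact (covDeriv_congr h1 h2).trans (covDeriv_map hG C.isMetric hΦ hmaps hp hr.1.2 hr.1.1 hr.2)
  obtain ⟨⟨hd, -⟩, -⟩ := hdiff.self_of_nhds
  have hDdiff : DifferentiableAt ℝ (covDeriv G₀ x₀ ξ₀) s :=
    (contDiffAt_covDeriv hG hyV hx₀ hξ₀).differentiableAt (by simp)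
  have hv : deriv x s = fderiv ℝ Φ (x₀ s) (deriv x₀ s) := by
    rw [hx'.deriv_eq]
    exact fderiv_comp_deriv s ((hΦ.differentiableOn (by simp)).differentiableAt
      (hV.mem_nhds hyV)) hd
  rw [covDeriv_congr hx' hcov, show (fun r => Φ (x₀ r)) = Φ ∘ x₀ from rfl, covDeriv_map hG C.isMetric hΦ hmaps hp hyV hd hDdiff,
    hx'.eq_of_nhds, hξ'.eq_of_nhds, hv, curvature_map hG C.isMetric hΦ hmaps hp hyV, ← map_add,
    hzero, map_zero]

end

end Vale.Agent.P255
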