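import Vale.Agent.P255.Assembly.ModelIndex
import Vale.Agent.P255.Develop
import Vale.Agent.P255.Piece

/-!
The closed three-manifold with a metric without conjugate points and no metric of nonpositive
curvature.
-/

open Bundle Manifold Set
open scoped ContDiff Topology

namespace Vale.Agent.P255

set_option maxSynthPendingDepth 3

noncomputable section

open P216.Chord in
/-- A model with an odd number of edges has no metric of nonpositive curvature. -/
theorem Model.not_nonpos {N : ℕ} (hN : Odd N) (hN₂ : 2 ≤ N) {P : Piece N} (Q : Model P)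
    (g : ContMDiffRiemannianMetric 𝓘(ℝ, E3) ∞ E3 (fun x : Q.M => TangentSpace 𝓘(ℝ, E3) x)) :
    ¬ HasNonposCurvature g := by
  intro hg
  obtain ⟨o, ⟨R⟩⟩ := exists_relations hN hN₂ Q
  letI : MetricSpace Q.M := gMetricSpace g
  obtain ⟨L⟩ := exists_localCN g hg
  have hgeo : ∀ a b : Q.M, ∃ p : Path a b, ∀ s t : unitInterval,
      dist (p s) (p t) = dist a b * |(s : ℝ) - t| := by
    intro a b
    obtain ⟨c, h0, h1, hc⟩ := exists_segment (g := g) a b
    refine ⟨⟨⟨fun s => c s, ?_⟩, by simpa using h0, by simpa using h1⟩,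
      fun s t => hc s s.2 t t.2⟩
    exact (IsSegment.continuousOn (g := g) (L := gdist g a b) hc).restrict
  obtain ⟨A⟩ := exists_action L hgeo o
  exact no_action A R

/-- There is a closed three-manifold with a metric without conjugate points and no metric of
nonpositive curvature. -/
theorem exists_counterexample :
    ∃ (M : Type) (_ : TopologicalSpace M) (_ : ChartedSpace E3 M)
      (_ : IsManifold 𝓘(ℝ, E3) ∞ M),
      T2Space M ∧ CompactSpace M ∧ ConnectedSpace M ∧
      (∃ g : ContMDiffRiemannianMetric 𝓘(ℝ, E3) ∞ E3 (fun x : M => TangentSpace 𝓘(ℝ, E3) x),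
        NoConjugatePoints g) ∧
      ∀ g : ContMDiffRiemannianMetric 𝓘(ℝ, E3) ∞ E3 (fun x : M => TangentSpace 𝓘(ℝ, E3) x),
        ¬ HasNonposCurvature g := by
  obtain ⟨N₀, h₀⟩ := exists_collarGood
  obtain ⟨N₁, h₁⟩ := exists_piece
  obtain ⟨N, hN⟩ : ∃ N, N = 2 * (N₀ + N₁) + 3 := ⟨_, rfl⟩
  have hodd : Odd N := ⟨N₀ + N₁ + 1, by omega⟩
  have hC := h₀ N (by omega)
  obtain ⟨P⟩ := h₁ N (by omega) hodd hC
  obtain ⟨Q⟩ := exists_model (by omega) hC P
  exact ⟨Q.M, inferInstance, inferInstance, inferInstance, inferInstance, inferInstance,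
    inferInstance, ⟨Q.g, Q.noConjugatePoints hC⟩, Q.not_nonpos hodd (by omega)⟩

end

end Vale.Agent.P255
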