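import Vale.Agent.P255.Assembly.Bands
import Vale.Agent.P255.Assembly.Integral
import Vale.Agent.P255.Glue

/-!
The index form on the glued manifold is nonnegative, so there are no conjugate points.
-/

open Bundle Manifold Set Filter MeasureTheory
open scoped ContDiff Topology

namespace Vale.Agent.P255

set_option maxSynthPendingDepth 3

noncomputable section

namespace Model

variable {N : ℕ} {P : Piece N} (Q : Model P)

/-- The index form over a passage through the middle band of an end. -/
theorem index_passage (hC : CollarGood N) (e : Fin N) {c : ℝ → Q.M}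
    (hc : P216.IsGeodesic Q.g c) {K : ∀ t, TangentSpace 𝓘(ℝ, E3) (c t)} {u v : ℝ} (huv : u < v)
    (hmem : ∀ s ∈ Icc u v, c s ∈ Q.band' e) (hK : IsTestAlong c K u v)
    (hu : K u = 0 ∨ c u ∉ Q.band e) (hv : K v = 0 ∨ c v ∉ Q.band e) :
    0 ≤ ∫ s in u..v, dens Q.g c K s := by
  set C := Q.endCoord hC e
  have hWo : IsOpen (C.ψ '' collarSet) := C.isOpen_image isOpen_collarSet' subset_rfl
  have hcc : Continuous c := hc.1.continuous
  obtain ⟨δ, hδ, hsub⟩ := (isCompact_Icc (a := u) (b := v)).exists_cthickening_subset_open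
    (hWo.preimage hcc)
    (fun s hs => image_mono (fun _ hy => strip_subset hy) (hmem s hs))
  have hthick : ∀ s ∈ Icc (u - δ) (v + δ), c s ∈ C.ψ '' collarSet := fun s hs => by
    refine hsub (Metric.mem_cthickening_of_dist_le s (max u (min s v)) δ _
      ⟨le_max_left _ _, max_le huv.le (min_le_right _ _)⟩ ?_)
    rw [Real.dist_eq, abs_le]
    rcases le_total s v with h | h <;> rcases le_total u s with h' | h'
    · rw [min_eq_left h, max_eq_right h']; constructor <;> linarith
    · rw [min_eq_left h, max_eq_left h']; constructor <;> linarith [hs.1]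
    · rw [min_eq_right h, max_eq_right huv.le]; constructor <;> linarith [hs.2]
    · rw [min_eq_right h, max_eq_right huv.le]; constructor <;> linarith [hs.2]
  have hmem' : ∀ s ∈ Icc (u - δ) (v + δ),
      c s ∈ (fun q => Q.proj false (P.endMap e q)) '' collarSet := fun s hs => by
    obtain ⟨y, hy, he⟩ := hthick s hs
    exact ⟨latInv N y, latInv_mem N hy, he⟩
  obtain ⟨z, hzc, hz⟩ := exists_lift Q e (show u - δ ≤ v + δ by linarith) hcc.continuousOn hmem'
  set x : ℝ → E3 := fun s => latMap N (z s)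
  have hxI : ∀ s ∈ Icc (u - δ) (v + δ), x s ∈ collarSet ∧ C.ψ (x s) = c s := fun s hs => by
    refine ⟨(hz s hs).1, ?_⟩
    show Q.proj false (P.endMap e (latInv N (latMap N (z s)))) = c s
    rw [latInv_latMap]
    exact (hz s hs).2
  have hin : ∀ s ∈ Icc u v, Icc (u - δ) (v + δ) ∈ 𝓝 s := fun s hs =>
    Icc_mem_nhds (by linarith [hs.1]) (by linarith [hs.2])
  -- the field in collar coordinates
  have hsurj : ∀ s, ∃ ξ : E3, x s ∈ collarSet →
      (mfderiv 𝓘(ℝ, E3) 𝓘(ℝ, E3) C.ψ (x s) ξ : E3) = (K s : E3) := by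
    intro s
    by_cases hs : x s ∈ collarSet
    · set T : E3 →L[ℝ] E3 := mfderiv 𝓘(ℝ, E3) 𝓘(ℝ, E3) C.ψ (x s)
      have hinj : Function.Injective T.toLinearMap := by
        rw [← LinearMap.ker_eq_bot, LinearMap.ker_eq_bot']
        exact fun w hw => by_contra fun hne => C.inj (x s) hs w hne hw
      obtain ⟨ξ, hξ⟩ := LinearMap.injective_iff_surjective.1 hinj (K s)
      exact ⟨ξ, fun _ => hξ⟩
    · exact ⟨0, fun h => absurd h hs⟩
  choose ξ hξ using hsurj
  have hR : ∀ s ∈ Icc u v, C.Reads c K x ξ s := fun s hs => by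
    have hxc : ContinuousAt x s :=
      (latMap N).continuous.continuousAt.comp (hzc.continuousAt (hin s hs))
    exact ⟨(hxI s (mem_of_mem_nhds (hin s hs))).1, hxc,
      eventually_of_mem (hin s hs) fun r hr => (hxI r hr).2,
      eventually_of_mem (hin s hs) fun r hr => hξ r (hxI r hr).1⟩
  have hgeo : IsGeoOn (collarMetric N) x u v := fun s hs =>
    C.geodesic hc (hR s hs).mem (hR s hs).cont (hR s hs).curve
  have hstrip : ∀ s ∈ Icc u v, |(x s).1| ≤ 2 := fun s hs => by
    obtain ⟨y, hy, he⟩ := hmem s hs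
    rw [(Q.endPsi_eq (strip_subset hy) (hR s hs).mem
      (he.trans (hR s hs).curve.self_of_nhds.symm)).2]
    exact hy
  have htest : IsTestField ξ u v := hK.reads C hc hR
  have hend : ∀ s ∈ Icc u v, (K s = 0 ∨ c s ∉ Q.band e) → ξ s = 0 ∨ |(x s).1| = 2 := by
    intro s hs h
    refine h.imp (fun hK0 => ?_) fun hnb => ?_
    · by_contra hne
      exact C.inj (x s) (hR s hs).mem _ hne ((hξ s (hR s hs).mem).trans hK0)
    · exact le_antisymm (hstrip s hs) (not_lt.1 fun hlt =>
        hnb ⟨x s, hlt, (hR s hs).curve.self_of_nhds⟩)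
  have key := hC.index x ξ u v huv hgeo hstrip htest (hend u (left_mem_Icc.2 huv.le) hu)
    (hend v (right_mem_Icc.2 huv.le) hv)
  refine key.trans_eq (intervalIntegral.integral_congr_ae ?_)
  obtain ⟨S, B, hS⟩ := htest.pieces
  filter_upwards [measure_eq_zero_iff_ae_notMem.1 (Real.volume_singleton (a := v)),
    measure_eq_zero_iff_ae_notMem.1 (S.finite_toSet.measure_zero volume)] with r hrv hrS hr
  rw [uIoc_of_le huv.le] at hr
  have hr' : r ∈ Ioo u v := ⟨hr.1, lt_of_le_of_ne hr.2 hrv⟩
  have hrI := Ioo_subset_Icc_self hr'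
  exact (((hR r hrI).dens_eq ((hgeo r hrI).1.differentiableAt (by simp))
    (hS r hr' hrS).1).1).symm

/-- The metric of the model has no conjugate points. -/
theorem noConjugatePoints (hC : CollarGood N) : NoConjugatePoints Q.g := by
  refine noConjugatePoints_of_index fun c hc K a b hab hK ha hb => ?_
  have hcc : Continuous c := hc.1.continuous
  set O : Set ℝ := ⋃ e, c ⁻¹' Q.band e
  refine integral_nonneg_of_components hab
    (isOpen_iUnion fun e => (Q.isOpen_band hC e).preimage hcc) (integrableOn_dens hc hK)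
    (fun s _ hs => dens_nonneg K (Q.curv_outside fun e he => hs (mem_iUnion.2 ⟨e, he⟩))) ?_
  intro u v hu huv hv hsub hue hve
  obtain ⟨e, he⟩ := mem_iUnion.1 (hsub (show (u + v) / 2 ∈ Ioo u v from
    ⟨by linarith, by linarith⟩))
  have hIoo : Ioo u v ⊆ c ⁻¹' Q.band e := by
    set O₂ : Set ℝ := ⋃ e' ∈ {e' | e' ≠ e}, c ⁻¹' Q.band e'
    refine isPreconnected_Ioo.subset_left_of_subset_union
      ((Q.isOpen_band hC e).preimage hcc)
      (v := O₂) (isOpen_biUnion fun e' _ => (Q.isOpen_band hC e').preimage hcc) ?_ ?_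
      ⟨_, ⟨by linarith, by linarith⟩, he⟩
    · refine Set.disjoint_left.2 fun s hs hs' => ?_
      obtain ⟨e', hne, hs''⟩ := mem_iUnion₂.1 hs'
      exact Set.disjoint_left.1 (Q.band_disjoint (Ne.symm hne)) (Q.band_subset e hs)
        (Q.band_subset e' hs'')
    · intro s hs
      obtain ⟨e', he'⟩ := mem_iUnion.1 (hsub hs)
      rcases eq_or_ne e' e with rfl | hne
      · exact .inl he'
      · exact .inr (mem_iUnion₂.2 ⟨e', hne, he'⟩)
  have hmem : ∀ s ∈ Icc u v, c s ∈ Q.band' e := fun s hs => by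
    rw [← closure_Ioo huv.ne] at hs
    exact closure_minimal (t := c ⁻¹' Q.band' e) (fun r hr => Q.band_subset e (hIoo hr))
      ((Q.isCompact_band' e).isClosed.preimage hcc) hs
  refine Q.index_passage hC e hc huv hmem (hK.mono hu hv) ?_ ?_
  · rcases hue with rfl | h
    exacts [.inl ha, .inr fun h' => h (mem_iUnion.2 ⟨e, h'⟩)]
  · rcases hve with rfl | h
    exacts [.inl hb, .inr fun h' => h (mem_iUnion.2 ⟨e, h'⟩)]

end Model

end

end Vale.Agent.P255
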