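import Vale.Agent.P255.Assembly.Intrinsic

/-!
Test fields along curves and the integrability of the index integrand.
-/

open Bundle Manifold Set Filter MeasureTheory
open scoped ContDiff Topology

namespace Vale.Agent.P255

set_option maxSynthPendingDepth 3

noncomputable section

open P216.Chord

variable {E : Type*} [NormedAddCommGroup E] [NormedSpace ℝ E] [FiniteDimensional ℝ E]

omit [FiniteDimensional ℝ E] in
theorem IsTestField.mono {ξ : ℝ → E} {a b a' b' : ℝ} (h : IsTestField ξ a b) (ha : a ≤ a')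
    (hb : b' ≤ b) : IsTestField ξ a' b' := by
  refine ⟨h.cont.mono (Icc_subset_Icc ha hb), ?_⟩
  obtain ⟨S, C, hS⟩ := h.pieces
  exact ⟨S, C, fun s hs => hS s ⟨ha.trans_lt hs.1, hs.2.trans_le hb⟩⟩

omit [FiniteDimensional ℝ E] in
theorem IsTestField.congr {ξ η : ℝ → E} {a b : ℝ} (h : IsTestField ξ a b)
    (he : ∀ s ∈ Icc a b, η s = ξ s) : IsTestField η a b := by
  refine ⟨h.cont.congr he, ?_⟩
  obtain ⟨S, C, hS⟩ := h.pieces
  refine ⟨S, C, fun s hs hsS => ?_⟩
  have hev : η =ᶠ[𝓝 s] ξ := eventually_of_mem (Ioo_mem_nhds hs.1 hs.2) fun r hr =>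
    he r (Ioo_subset_Icc_self hr)
  obtain ⟨h1, h2, h3⟩ := hS s hs hsS
  exact ⟨h1.congr_of_eventuallyEq hev, h2.congr hev.deriv.symm, by rwa [hev.deriv_eq]⟩

/-- A smooth linear image of a test field. -/
theorem IsTestField.clm_apply {ξ : ℝ → E} {A : ℝ → E →L[ℝ] E} {a b : ℝ} (h : IsTestField ξ a b)
    (hA : ∀ s ∈ Icc a b, ContDiffAt ℝ 1 A s) : IsTestField (fun s => A s (ξ s)) a b := by
  have hAc : ContinuousOn A (Icc a b) := fun s hs => (hA s hs).continuousAt.continuousWithinAt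
  refine ⟨hAc.clm_apply h.cont, ?_⟩
  obtain ⟨S, C, hS⟩ := h.pieces
  have hA'c : ContinuousOn (deriv A) (Icc a b) := fun s hs =>
    ((((hA s hs).fderiv_right (m := 0) (by simp)).continuousAt).clm_apply
      (continuousAt_const (y := (1 : ℝ)))).continuousWithinAt.congr
      (fun r _ => fderiv_apply_one_eq_deriv.symm) fderiv_apply_one_eq_deriv.symm
  obtain ⟨C₁, hC₁⟩ := isCompact_Icc.exists_bound_of_continuousOn (hA'c.clm_apply h.cont)
  obtain ⟨C₂, hC₂⟩ := isCompact_Icc.exists_bound_of_continuousOn hAc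
  refine ⟨S, C₁ + C₂ * C, fun s hs hsS => ?_⟩
  obtain ⟨h1, h2, h3⟩ := hS s hs hsS
  have hsI := Ioo_subset_Icc_self hs
  have hd : deriv (fun r => A r (ξ r)) s = deriv A s (ξ s) + A s (deriv ξ s) :=
    (((hA s hsI).differentiableAt one_ne_zero).hasDerivAt.clm_apply h1.hasDerivAt).deriv
  refine ⟨((hA s hsI).differentiableAt one_ne_zero).clm_apply h1, ?_, ?_⟩
  · have hev : deriv (fun r => A r (ξ r)) =ᶠ[𝓝 s] fun r => deriv A r (ξ r) + A r (deriv ξ r) := by
      filter_upwards [(S.finite_toSet.isClosed.isOpen_compl.mem_nhds hsS),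
        Ioo_mem_nhds hs.1 hs.2] with r hr hrI
      exact (((hA r (Ioo_subset_Icc_self hrI)).differentiableAt one_ne_zero).hasDerivAt.clm_apply
        (hS r hrI hr).1.hasDerivAt).deriv
    exact (((hA'c.continuousAt (Icc_mem_nhds hs.1 hs.2)).clm_apply h1.continuousAt).add
      ((hA s hsI).continuousAt.clm_apply h2)).congr hev.symm
  · rw [hd]
    refine (norm_add_le _ _).trans (add_le_add (hC₁ s hsI) ?_)
    exact ((A s).le_opNorm _).trans (mul_le_mul (hC₂ s hsI) h3 (norm_nonneg _)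
      ((norm_nonneg _).trans (hC₂ s hsI)))

omit [FiniteDimensional ℝ E] in
/-- A field which is a test field near each time of a compact interval is one on it. -/
theorem IsTestField.of_locally {ξ : ℝ → E} {a b : ℝ}
    (h : ∀ s ∈ Icc a b, ∃ δ > 0, IsTestField ξ (s - δ) (s + δ)) : IsTestField ξ a b := by
  refine ⟨fun s hs => ?_, ?_⟩
  · obtain ⟨δ, hδ, hf⟩ := h s hs
    exact (hf.cont.continuousAt (Icc_mem_nhds (by linarith) (by linarith))).continuousWithinAt
  choose δ hδ hf using h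
  choose S C hS using fun s hs => (hf s hs).pieces
  obtain ⟨t, ht⟩ := isCompact_Icc.elim_finite_subcover
    (fun s : Icc a b => Ioo ((s : ℝ) - δ s s.2) (s + δ s s.2)) (fun _ => isOpen_Ioo)
    fun s hs => mem_iUnion.2 ⟨⟨s, hs⟩, by linarith [hδ s hs], by linarith [hδ s hs]⟩
  refine ⟨t.biUnion fun s => S s s.2, ∑ s ∈ t, |C s s.2|, fun r hr hrS => ?_⟩
  obtain ⟨s, hst, hrs⟩ := mem_iUnion₂.1 (ht (Ioo_subset_Icc_self hr))
  obtain ⟨h1, h2, h3⟩ := hS s s.2 r hrs fun hmem => hrS (Finset.mem_biUnion.2 ⟨s, hst, hmem⟩)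
  refine ⟨h1, h2, h3.trans ((le_abs_self _).trans ?_)⟩
  exact Finset.single_le_sum (f := fun s : Icc a b => |C s s.2|) (fun _ _ => abs_nonneg _) hst

/-- The integrand of a test field along a geodesic is integrable. -/
theorem integrableOn_indexDensity {U : Set E} {G : E → E →L[ℝ] E →L[ℝ] ℝ}
    (hG : IsMetricOn U G) {x ξ : ℝ → E} {a b : ℝ}
    (hx : ∀ s ∈ Icc a b, ContDiffAt ℝ ∞ x s ∧ x s ∈ U) (hξ : IsTestField ξ a b) :
    IntegrableOn (indexDensity G x ξ) (Icc a b) := by
  obtain ⟨S, C, hS⟩ := hξ.pieces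
  rw [integrableOn_Icc_iff_integrableOn_Ioo]
  have hxc : ∀ s ∈ Icc a b, ContinuousAt x s := fun s hs => (hx s hs).1.continuousAt
  have hx'c : ∀ s ∈ Icc a b, ContinuousAt (deriv x) s := fun s hs =>
    ((((hx s hs).1.fderiv_right (m := 0) (by simp)).continuousAt).clm_apply
      (continuousAt_const (y := (1 : ℝ)))).congr
      (Eventually.of_forall fun r => fderiv_apply_one_eq_deriv)
  set O : Set ℝ := Ioo a b \ ↑S
  have hO : IsOpen O := isOpen_Ioo.sdiff S.finite_toSet.isClosed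
  have hcont : ∀ s ∈ O, ContinuousAt (indexDensity G x ξ) s := by
    intro s hs
    have hsI := Ioo_subset_Icc_self hs.1
    have hξc : ContinuousAt ξ s := (hS s hs.1 hs.2).1.continuousAt
    have hD : ContinuousAt (covDeriv G x ξ) s :=
      ((hS s hs.1 hs.2).2.1).add
        (continuousAt_christoffel hG (hx s hsI).2 (hxc s hsI) (hx'c s hsI) hξc)
    have hGc : ContinuousAt (fun r => G (x r)) s :=
      (hG.smooth.continuousOn.continuousAt (hG.isOpen.mem_nhds (hx s hsI).2)).comp (hxc s hsI)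
    exact ((hGc.clm_apply hD).clm_apply hD).sub ((hGc.clm_apply
      (continuousAt_curvature hG (hx s hsI).2 (hxc s hsI) hξc (hx'c s hsI) (hx'c s hsI))).clm_apply
      hξc)
  have hmeas : AEStronglyMeasurable (indexDensity G x ξ) (volume.restrict O) :=
    ContinuousOn.aestronglyMeasurable (fun s hs => (hcont s hs).continuousWithinAt)
      hO.measurableSet
  have hae : (Ioo a b : Set ℝ) =ᵐ[volume] O := by
    refine (diff_null_ae_eq_self ?_).symm
    exact S.finite_toSet.measure_zero _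
  rw [integrableOn_congr_set_ae hae]
  have hKc : IsCompact (((fun s => (x s, deriv x s, ξ s)) '' Icc a b) ×ˢ
      Metric.closedBall (0 : E) C) := by
    refine IsCompact.prod (isCompact_Icc.image_of_continuousOn ?_) (isCompact_closedBall _ _)
    exact ContinuousOn.prodMk (fun s hs => (hxc s hs).continuousWithinAt)
      (ContinuousOn.prodMk (fun s hs => (hx'c s hs).continuousWithinAt) hξ.cont)
  set F : (E × E × E) × E → ℝ := fun q =>
    G q.1.1 (q.2 + christoffel G q.1.1 q.1.2.1 q.1.2.2) (q.2 + christoffel G q.1.1 q.1.2.1 q.1.2.2) -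
      G q.1.1 (curvature G q.1.1 q.1.2.2 q.1.2.1 q.1.2.1) q.1.2.2
  have hF : ContinuousOn F (((fun s => (x s, deriv x s, ξ s)) '' Icc a b) ×ˢ
      Metric.closedBall (0 : E) C) := by
    intro q hq
    obtain ⟨s, hs, hsq⟩ := hq.1
    have hU : q.1.1 ∈ U := by rw [← hsq]; exact (hx s hs).2
    have h1 : ContinuousAt (fun q : (E × E × E) × E => q.1.1) q :=
      (continuous_fst.comp continuous_fst).continuousAt
    have h2 : ContinuousAt (fun q : (E × E × E) × E => q.1.2.1) q :=
      (continuous_fst.comp (continuous_snd.comp continuous_fst)).continuousAt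
    have h3 : ContinuousAt (fun q : (E × E × E) × E => q.1.2.2) q :=
      (continuous_snd.comp (continuous_snd.comp continuous_fst)).continuousAt
    have hD : ContinuousAt
        (fun q : (E × E × E) × E => q.2 + christoffel G q.1.1 q.1.2.1 q.1.2.2) q :=
      continuous_snd.continuousAt.add (continuousAt_christoffel hG hU h1 h2 h3)
    have hGc : ContinuousAt (fun q : (E × E × E) × E => G q.1.1) q :=
      ContinuousAt.comp (g := G)
        (f := fun q : (E × E × E) × E => q.1.1)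
        (hG.smooth.continuousOn.continuousAt (hG.isOpen.mem_nhds hU)) h1
    exact (((hGc.clm_apply hD).clm_apply hD).sub ((hGc.clm_apply
      (continuousAt_curvature hG hU h1 h3 h2 h2)).clm_apply h3)).continuousWithinAt
  obtain ⟨B, hB⟩ := hKc.exists_bound_of_continuousOn hF
  refine IntegrableOn.of_bound ((measure_mono sdiff_subset).trans_lt measure_Ioo_lt_top) hmeas B ?_
  refine (ae_restrict_iff' hO.measurableSet).2 (Eventually.of_forall fun s hs => ?_)
  exact hB ((x s, deriv x s, ξ s), deriv ξ s) ⟨mem_image_of_mem _ (Ioo_subset_Icc_self hs.1),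
    mem_closedBall_zero_iff.2 (hS s hs.1 hs.2).2.2⟩

variable {M : Type*} [TopologicalSpace M] [ChartedSpace E M] [IsManifold 𝓘(ℝ, E) ∞ M]
  {g : ContMDiffRiemannianMetric 𝓘(ℝ, E) ∞ E (fun x : M => TangentSpace 𝓘(ℝ, E) x)}

/-- A test field along a curve: near each time a test field in the chart centred there. -/
def IsTestAlong (c : ℝ → M) (K : ∀ t, TangentSpace 𝓘(ℝ, E) (c t)) (a b : ℝ) : Prop :=
  ∀ s ∈ Icc a b, ∃ δ > 0, IsTestField (fieldInChart (c s) c K) (s - δ) (s + δ)

omit [FiniteDimensional ℝ E] [IsManifold 𝓘(ℝ, E) ∞ M] in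
theorem IsTestAlong.mono {c : ℝ → M} {K : ∀ t, TangentSpace 𝓘(ℝ, E) (c t)} {a b a' b' : ℝ}
    (h : IsTestAlong c K a b) (ha : a ≤ a') (hb : b' ≤ b) : IsTestAlong c K a' b' :=
  fun s hs => h s ⟨ha.trans hs.1, hs.2.trans hb⟩

/-- A test field along a geodesic, read in coordinates. -/
theorem IsTestAlong.reads (C : Coord g) {c : ℝ → M} (hc : P216.IsGeodesic g c)
    {K : ∀ t, TangentSpace 𝓘(ℝ, E) (c t)} {a b : ℝ} (h : IsTestAlong c K a b) {x ξ : ℝ → E}
    (hr : ∀ s ∈ Icc a b, C.Reads c K x ξ s) : IsTestField ξ a b := by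
  refine IsTestField.of_locally fun s hs => ?_
  obtain ⟨δ, hδ, hf⟩ := h s hs
  have hR := hr s hs
  have hR0 := hR.chart
  obtain ⟨V, Φ, hV, hyV, -, -, hΦ, -, -, hξ⟩ := hR0.compare hR
  set x₀ : ℝ → E := fun r => extChartAt 𝓘(ℝ, E) (c s) (c r)
  have hx₀ : ∀ᶠ r in 𝓝 s, ContDiffAt ℝ 1 x₀ r :=
    ((((contMDiffAt_extChartAt' (mem_chart_source E (c s))).comp s (hc.1 s)).contDiffAt).of_le
      (show (1 : WithTop ℕ∞) ≤ ∞ by simp)).eventually (by simp)
  obtain ⟨η, hη, hgood⟩ := Metric.nhds_basis_closedBall.mem_iff.1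
    (hξ.and (hx₀.and (hR0.cont.eventually_mem (hV.mem_nhds hyV))))
  rw [Real.closedBall_eq_Icc] at hgood
  refine ⟨min δ η, lt_min hδ hη, ?_⟩
  have hf' := hf.mono (a' := s - min δ η) (b' := s + min δ η)
    (by linarith [min_le_left δ η]) (by linarith [min_le_left δ η])
  have hsub : ∀ r ∈ Icc (s - min δ η) (s + min δ η), r ∈ Icc (s - η) (s + η) := fun r hr =>
    ⟨by linarith [hr.1, min_le_right δ η], by linarith [hr.2, min_le_right δ η]⟩
  refine (hf'.clm_apply (A := fun r => fderiv ℝ Φ (x₀ r)) fun r hr => ?_).congr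
    fun r hr => (hgood (hsub r hr)).1
  obtain ⟨-, h1, h2⟩ := hgood (hsub r hr)
  exact (((hΦ.fderiv_of_isOpen hV (m := 1) (by exact WithTop.coe_le_coe.2 le_top)).contDiffAt (hV.mem_nhds h2)).comp r h1)

/-- The intrinsic integrand of a test field along a geodesic is integrable. -/
theorem integrableOn_dens {c : ℝ → M} (hc : P216.IsGeodesic g c)
    {K : ∀ t, TangentSpace 𝓘(ℝ, E) (c t)} {a b : ℝ} (h : IsTestAlong c K a b) :
    IntegrableOn (dens g c K) (Icc a b) := by
  refine LocallyIntegrableOn.integrableOn_isCompact (fun s hs => ?_) isCompact_Icc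
  obtain ⟨δ, hδ, hf⟩ := h s hs
  have hR := Coord.chart_reads (g := g) K (hc.1 s).continuousAt (mem_extChartAt_source (c s))
  have hev : ∀ᶠ r in 𝓝 s, c r ∈ (extChartAt 𝓘(ℝ, E) (c s)).source :=
    (hc.1 s).continuousAt.eventually_mem ((isOpen_extChartAt_source (c s)).mem_nhds
      (mem_extChartAt_source (c s)))
  obtain ⟨η, hη, hgood⟩ := Metric.nhds_basis_closedBall.mem_iff.1 hev
  rw [Real.closedBall_eq_Icc] at hgood
  set ρ := min δ η
  have hρ : 0 < ρ := lt_min hδ hη
  set x₀ : ℝ → E := fun r => extChartAt 𝓘(ℝ, E) (c s) (c r)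
  have hreads : ∀ r ∈ Icc (s - ρ) (s + ρ),
      (Coord.chart g (c s)).Reads c K x₀ (fieldInChart (c s) c K) r := fun r hr =>
    Coord.chart_reads K (hc.1 r).continuousAt (hgood ⟨by linarith [hr.1, min_le_right δ η],
      by linarith [hr.2, min_le_right δ η]⟩)
  have hx : ∀ r ∈ Icc (s - ρ) (s + ρ), ContDiffAt ℝ ∞ x₀ r ∧ x₀ r ∈ (Coord.chart g (c s)).U :=
    fun r hr => ⟨(Coord.geodesic _ hc (hreads r hr).mem (hreads r hr).cont (hreads r hr).curve).1,
      (hreads r hr).mem⟩
  have hf' := hf.mono (a' := s - ρ) (b' := s + ρ) (by linarith [min_le_left δ η])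
    (by linarith [min_le_left δ η])
  refine ⟨Icc (s - ρ) (s + ρ), mem_nhdsWithin_of_mem_nhds (Icc_mem_nhds (by linarith) (by linarith)),
    ?_⟩
  refine (integrableOn_indexDensity (Coord.chart g (c s)).isMetric hx hf').congr_fun_ae ?_
  obtain ⟨S, C, hS⟩ := hf'.pieces
  have hnull : ∀ᵐ r ∂(volume.restrict (Icc (s - ρ) (s + ρ))), r ∈ Ioo (s - ρ) (s + ρ) ∧ r ∉ S := by
    rw [← restrict_Ioo_eq_restrict_Icc]
    refine (ae_restrict_mem measurableSet_Ioo).and ?_
    exact ae_restrict_of_ae (measure_eq_zero_iff_ae_notMem.1 (S.finite_toSet.measure_zero volume))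
  filter_upwards [hnull] with r hr
  have hrI := Ioo_subset_Icc_self hr.1
  exact ((hreads r hrI).dens_eq ((hx r hrI).1.differentiableAt (by simp))
    (hS r hr.1 hr.2).1).1.symm

end

end Vale.Agent.P255
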